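import Vale.Agent.P273.H837.Proj

/-!
Moebius maps of the projective line in homogeneous coordinates.
-/

noncomputable section

namespace Vale.Agent.P273.H837

open Set Filter Topology H183
open scoped Topology

variable {m : ℕ}

/-- A matrix acting on homogeneous coordinates. -/
def act (M : Matrix (Fin 2) (Fin 2) ℂ) (u : ℂ × ℂ) : ℂ × ℂ :=
  (M 0 0 * u.1 + M 0 1 * u.2, M 1 0 * u.1 + M 1 1 * u.2)

/-- Homogeneous coordinates. -/
def lft (z : OnePoint ℂ) : ℂ × ℂ := z.elim (1, 0) fun w => (w, 1)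

@[simp] lemma lft_infty : lft OnePoint.infty = (1, 0) := rfl

@[simp] lemma lft_coe (w : ℂ) : lft (w : OnePoint ℂ) = (w, 1) := rfl

lemma lft_ne (z : OnePoint ℂ) : lft z ≠ 0 := by
  induction z using OnePoint.rec with
  | infty => simp
  | coe w => simp

lemma proj_lft (z : OnePoint ℂ) : proj (lft z) = z := by
  induction z using OnePoint.rec with
  | infty => simp [proj]
  | coe w => simp [proj]

/-- The Moebius map of a matrix. -/
def mob (M : Matrix (Fin 2) (Fin 2) ℂ) (z : OnePoint ℂ) : OnePoint ℂ := proj (act M (lft z))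

lemma br_act (M : Matrix (Fin 2) (Fin 2) ℂ) (u v : ℂ × ℂ) :
    br (act M u) (act M v) = M.det * br u v := by
  simp only [br, act, Matrix.det_fin_two]
  ring

lemma act_act (M N : Matrix (Fin 2) (Fin 2) ℂ) (u : ℂ × ℂ) : act M (act N u) = act (M * N) u := by
  simp only [act, Matrix.mul_apply, Fin.sum_univ_two]
  ext <;> simp <;> ring

lemma act_one (u : ℂ × ℂ) : act 1 u = u := by
  simp [act]

lemma act_smul (M : Matrix (Fin 2) (Fin 2) ℂ) (c : ℂ) (u : ℂ × ℂ) :
    act M (c * u.1, c * u.2) = (c * (act M u).1, c * (act M u).2) := by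
  simp only [act]
  ext <;> simp <;> ring

lemma act_ne {M : Matrix (Fin 2) (Fin 2) ℂ} (hM : M.det ≠ 0) {u : ℂ × ℂ} (hu : u ≠ 0) :
    act M u ≠ 0 := by
  intro h
  have h1 : act M⁻¹ (act M u) = u := by
    rw [act_act, Matrix.nonsing_inv_mul _ (Ne.isUnit hM), act_one]
  rw [h] at h1
  apply hu
  rw [← h1]
  simp [act]

lemma br_self (u : ℂ × ℂ) : br u u = 0 := by simp [br, mul_comm]

lemma mob_proj {M : Matrix (Fin 2) (Fin 2) ℂ} (hM : M.det ≠ 0) {u : ℂ × ℂ} (hu : u ≠ 0) :
    mob M (proj u) = proj (act M u) := by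
  unfold mob
  rw [proj_eq_iff (act_ne hM (lft_ne _)) (act_ne hM hu), br_act]
  have : br (lft (proj u)) u = 0 := (proj_eq_iff (lft_ne _) hu).1 (proj_lft _)
  rw [this, mul_zero]

lemma mob_mob {M N : Matrix (Fin 2) (Fin 2) ℂ} (hM : M.det ≠ 0) (hN : N.det ≠ 0)
    (z : OnePoint ℂ) : mob M (mob N z) = mob (M * N) z := by
  have h1 : mob N z = proj (act N (lft z)) := rfl
  rw [h1, mob_proj hM (act_ne hN (lft_ne z)), act_act]
  rfl

lemma mob_one (z : OnePoint ℂ) : mob 1 z = z := by
  unfold mob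
  rw [act_one, proj_lft]

lemma mob_inv {M : Matrix (Fin 2) (Fin 2) ℂ} (hM : M.det ≠ 0) (z : OnePoint ℂ) :
    mob M⁻¹ (mob M z) = z := by
  rw [mob_mob (by rw [Matrix.det_nonsing_inv, Ring.inverse_eq_inv']; exact inv_ne_zero hM) hM,
    Matrix.nonsing_inv_mul _ (Ne.isUnit hM), mob_one]

lemma mob_inv' {M : Matrix (Fin 2) (Fin 2) ℂ} (hM : M.det ≠ 0) (z : OnePoint ℂ) :
    mob M (mob M⁻¹ z) = z := by
  rw [mob_mob hM (by rw [Matrix.det_nonsing_inv, Ring.inverse_eq_inv']; exact inv_ne_zero hM),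
    Matrix.mul_nonsing_inv _ (Ne.isUnit hM), mob_one]

lemma mob_injective {M : Matrix (Fin 2) (Fin 2) ℂ} (hM : M.det ≠ 0) :
    Function.Injective (mob M) := Function.LeftInverse.injective (mob_inv hM)

lemma mob_surjective {M : Matrix (Fin 2) (Fin 2) ℂ} (hM : M.det ≠ 0) :
    Function.Surjective (mob M) := Function.RightInverse.surjective (mob_inv' hM)

/-- Pattern of identifications of the graph `h` with special points at `z`. -/
def Id2 {L V E : Type} (h : (E × Bool) ⊕ L → V) (z : (E × Bool) ⊕ L → OnePoint ℂ) (v : V)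
    (w : OnePoint ℂ) (v' : V) (w' : OnePoint ℂ) : Prop :=
  v = v' ∧ w = w' ∨ ∃ (e : E) (s : Bool),
    (v = h (Sum.inl (e, s)) ∧ w = z (Sum.inl (e, s))) ∧
      v' = h (Sum.inl (e, !s)) ∧ w' = z (Sum.inl (e, !s))

/-- An isomorphism of graphs with the same legs. -/
structure GIso {L V E V' E' : Type} (h : (E × Bool) ⊕ L → V) (h' : (E' × Bool) ⊕ L → V') where
  /-- The map of the vertices. -/
  v : V ≃ V'
  /-- The map of the half-edges. -/
  q : E × Bool ≃ E' × Bool
  edge : ∀ e s, q (e, !s) = ((q (e, s)).1, !(q (e, s)).2)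
  comm : ∀ y, h' (Sum.map q id y) = v (h y)

namespace GIso

variable {L V E V' E' : Type} {h : (E × Bool) ⊕ L → V} {h' : (E' × Bool) ⊕ L → V'}

/-- The inverse. -/
def symm (i : GIso h h') : GIso h' h where
  v := i.v.symm
  q := i.q.symm
  edge := by
    intro e s
    apply i.q.injective
    rw [Equiv.apply_symm_apply]
    obtain ⟨⟨e', s'⟩, h1⟩ := i.q.surjective (e, s)
    have h2 := i.edge e' s'
    rw [h1] at h2
    rw [← h1, Equiv.symm_apply_apply]
    simp only
    rw [i.edge, h1]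
  comm := by
    intro y
    apply i.v.injective
    rw [Equiv.apply_symm_apply, ← i.comm]
    congr 1
    cases y <;> simp

/-- The map of half-edges and legs. -/
def Q (i : GIso h h') (y : (E × Bool) ⊕ L) : (E' × Bool) ⊕ L := Sum.map i.q id y

lemma h_Q (i : GIso h h') (y) : h' (i.Q y) = i.v (h y) := i.comm y

lemma Q_symm (i : GIso h h') (y) : i.Q (i.symm.Q y) = y := by
  cases y <;> simp [Q, symm]

lemma symm_Q (i : GIso h h') (y) : i.symm.Q (i.Q y) = y := by
  cases y <;> simp [Q, symm]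

lemma symm_symm (i : GIso h h') : i.symm.symm = i := rfl

lemma id2_iff (i : GIso h h') {A : V → Matrix (Fin 2) (Fin 2) ℂ} (hA : ∀ v, (A v).det ≠ 0)
    {z : (E × Bool) ⊕ L → OnePoint ℂ} {z' : (E' × Bool) ⊕ L → OnePoint ℂ}
    (hz : ∀ y, z' (i.Q y) = mob (A (h y)) (z y)) (v : V) (w : OnePoint ℂ) (v' : V)
    (w' : OnePoint ℂ) :
    Id2 h' z' (i.v v) (mob (A v) w) (i.v v') (mob (A v') w') ↔ Id2 h z v w v' w' := by
  unfold Id2
  constructor
  · rintro (⟨h1, h2⟩ | ⟨e, s, ⟨h1, h2⟩, h3, h4⟩)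
    · have h1 := i.v.injective h1
      subst h1
      exact Or.inl ⟨rfl, mob_injective (hA _) h2⟩
    · obtain ⟨⟨e', s'⟩, h5⟩ := i.q.surjective (e, s)
      right
      refine ⟨e', s', ⟨?_, ?_⟩, ?_, ?_⟩
      · apply i.v.injective
        rw [h1, ← h5]
        exact i.comm (Sum.inl (e', s'))
      · have h6 : v = h (Sum.inl (e', s')) := by
          apply i.v.injective
          rw [h1, ← h5]
          exact i.comm (Sum.inl (e', s'))
        have h7 := hz (Sum.inl (e', s'))
        have h8 : i.Q (Sum.inl (e', s')) = Sum.inl (e, s) := by simp [Q, h5]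
        rw [h8, ← h2, ← h6] at h7
        exact mob_injective (hA _) h7
      · apply i.v.injective
        have h9 : i.q (e', !s') = (e, !s) := by rw [i.edge, h5]
        rw [h3, ← h9]
        exact i.comm (Sum.inl (e', !s'))
      · have h9 : i.q (e', !s') = (e, !s) := by rw [i.edge, h5]
        have h6 : v' = h (Sum.inl (e', !s')) := by
          apply i.v.injective
          rw [h3, ← h9]
          exact i.comm (Sum.inl (e', !s'))
        have h7 := hz (Sum.inl (e', !s'))
        have h8 : i.Q (Sum.inl (e', !s')) = Sum.inl (e, !s) := by simp [Q, h9]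
        rw [h8, ← h4, ← h6] at h7
        exact mob_injective (hA _) h7
  · rintro (⟨h1, h2⟩ | ⟨e, s, ⟨h1, h2⟩, h3, h4⟩)
    · subst h1; subst h2
      exact Or.inl ⟨rfl, rfl⟩
    · right
      refine ⟨(i.q (e, s)).1, (i.q (e, s)).2, ⟨?_, ?_⟩, ?_, ?_⟩
      · rw [h1]
        exact (i.comm (Sum.inl (e, s))).symm
      · rw [h2, h1]
        exact (hz (Sum.inl (e, s))).symm
      · rw [h3, ← i.edge]
        exact (i.comm (Sum.inl (e, !s))).symm
      · rw [h4, h3, ← i.edge]
        exact (hz (Sum.inl (e, !s))).symm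

end GIso

end Vale.Agent.P273.H837

end
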