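import Vale.Agent.P273.H837.Strata

/-!
Homogeneous coordinates on the projective line: continuity and holomorphy of functions on
`P^1 × ℂ^m` in homogeneous coordinates.
-/

noncomputable section

namespace Vale.Agent.P273.H837

open Set Filter Topology H183
open scoped Topology

variable {m : ℕ}

/-- The point of the projective line with homogeneous coordinates `u`. -/
def proj (u : ℂ × ℂ) : OnePoint ℂ :=
  if u.2 = 0 then OnePoint.infty else ((u.1 / u.2 : ℂ) : OnePoint ℂ)

/-- The bracket. -/
def br (u v : ℂ × ℂ) : ℂ := u.1 * v.2 - u.2 * v.1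

lemma proj_one (w : ℂ) : proj (w, 1) = (w : OnePoint ℂ) := by simp [proj]

lemma proj_inf (w : ℂ) : proj (1, w) = inf w := by simp [proj, inf]

lemma inf_zero : inf 0 = OnePoint.infty := by simp [inf]

lemma proj_smul {c : ℂ} (hc : c ≠ 0) (u : ℂ × ℂ) : proj (c * u.1, c * u.2) = proj u := by
  unfold proj
  simp only [mul_eq_zero, hc, false_or]
  split_ifs with h
  · rfl
  · rw [mul_div_mul_left _ _ hc]

lemma proj_surj (z : OnePoint ℂ) : ∃ u : ℂ × ℂ, u ≠ 0 ∧ proj u = z := by
  induction z using OnePoint.rec with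
  | infty => exact ⟨(1, 0), by simp, by simp [proj]⟩
  | coe w => exact ⟨(w, 1), by simp, proj_one w⟩

lemma proj_eq_infty {u : ℂ × ℂ} : proj u = OnePoint.infty ↔ u.2 = 0 := by
  unfold proj
  split_ifs with h
  · simp [h]
  · simp [h]

lemma proj_eq_coe {u : ℂ × ℂ} {w : ℂ} : proj u = (w : OnePoint ℂ) ↔ u.2 ≠ 0 ∧ u.1 = w * u.2 := by
  unfold proj
  split_ifs with h
  · simp [h]
  · simp only [OnePoint.coe_eq_coe, ne_eq, h, not_false_eq_true, true_and]
    exact div_eq_iff h

lemma proj_eq_iff {u v : ℂ × ℂ} (hu : u ≠ 0) (hv : v ≠ 0) : proj u = proj v ↔ br u v = 0 := by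
  unfold br
  by_cases h : v.2 = 0
  · have h1 : v.1 ≠ 0 := fun h' => hv (Prod.ext h' h)
    rw [proj_eq_infty.2 h, proj_eq_infty, h]
    simp [h1]
  · have : proj v = ((v.1 / v.2 : ℂ) : OnePoint ℂ) := by simp [proj, h]
    rw [this, proj_eq_coe]
    constructor
    · rintro ⟨_, h2⟩
      rw [h2]; field_simp; ring
    · intro h2
      have h3 : u.2 ≠ 0 := by
        intro h3
        rw [h3] at h2
        have : u.1 = 0 := by simpa [h] using h2
        exact hu (Prod.ext this h3)
      refine ⟨h3, ?_⟩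
      field_simp
      linear_combination h2

/-- The map `z ↦ 1 / z` of the projective line. -/
def swp (z : OnePoint ℂ) : OnePoint ℂ := z.elim ((0 : ℂ) : OnePoint ℂ) inf

@[simp] lemma swp_infty : swp OnePoint.infty = ((0 : ℂ) : OnePoint ℂ) := rfl

@[simp] lemma swp_coe (w : ℂ) : swp (w : OnePoint ℂ) = inf w := rfl

lemma swp_swp (z : OnePoint ℂ) : swp (swp z) = z := by
  induction z using OnePoint.rec with
  | infty => simp [inf_zero]
  | coe w =>
    rw [swp_coe, inf]
    split_ifs with h
    · simp [h]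
    · rw [swp_coe, inf, if_neg (inv_ne_zero h), inv_inv]

lemma continuous_inf : Continuous (inf : ℂ → OnePoint ℂ) := by
  rw [continuous_iff_continuousAt]
  intro w
  by_cases hw : w = 0
  · subst hw
    rw [ContinuousAt, inf_zero, ← nhdsNE_sup_pure, tendsto_sup]
    constructor
    · have h1 : Tendsto (fun w : ℂ => ((w⁻¹ : ℂ) : OnePoint ℂ)) (𝓝[≠] 0) (𝓝 OnePoint.infty) := by
        refine OnePoint.tendsto_coe_infty.comp ?_
        rw [coclosedCompact_eq_cocompact, ← Metric.cobounded_eq_cocompact]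
        exact tendsto_inv₀_nhdsNE_zero
      refine h1.congr' ?_
      filter_upwards [self_mem_nhdsWithin] with x hx
      have hx : x ≠ 0 := hx
      rw [inf, if_neg hx]
    · rw [tendsto_pure_left]
      intro s hs
      rw [inf_zero]
      exact mem_of_mem_nhds hs
  · have h1 : ContinuousAt (fun w : ℂ => ((w⁻¹ : ℂ) : OnePoint ℂ)) w :=
      OnePoint.continuous_coe.continuousAt.comp (continuousAt_inv₀ hw)
    refine h1.congr ?_
    filter_upwards [isOpen_ne.mem_nhds hw] with x hx
    rw [inf, if_neg hx]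

lemma continuous_swp : Continuous swp := by
  rw [continuous_iff_continuousAt]
  intro z
  induction z using OnePoint.rec with
  | infty =>
    rw [OnePoint.continuousAt_infty']
    have h1 : Tendsto (fun w : ℂ => ((w⁻¹ : ℂ) : OnePoint ℂ)) (Filter.coclosedCompact ℂ)
        (𝓝 ((0 : ℂ) : OnePoint ℂ)) := by
      refine (OnePoint.continuous_coe.tendsto _).comp ?_
      rw [coclosedCompact_eq_cocompact, ← Metric.cobounded_eq_cocompact]
      exact tendsto_inv₀_cobounded
    rw [swp_infty]
    refine h1.congr' ?_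
    have : ({0}ᶜ : Set ℂ) ∈ Filter.coclosedCompact ℂ := by
      rw [coclosedCompact_eq_cocompact]
      exact isCompact_singleton.compl_mem_cocompact
    filter_upwards [this] with x hx
    have hx : x ≠ 0 := hx
    simp only [Function.comp, swp_coe]
    rw [inf, if_neg hx]
  | coe w =>
    rw [OnePoint.continuousAt_coe]
    exact continuous_inf.continuousAt

/-- The homeomorphism `z ↦ 1 / z`. -/
def swpHomeo : OnePoint ℂ ≃ₜ OnePoint ℂ where
  toFun := swp
  invFun := swp
  left_inv := swp_swp
  right_inv := swp_swp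
  continuous_toFun := continuous_swp
  continuous_invFun := continuous_swp

lemma isOpenEmbedding_inf : IsOpenEmbedding (inf : ℂ → OnePoint ℂ) := by
  have : (inf : ℂ → OnePoint ℂ) = swpHomeo ∘ ((↑) : ℂ → OnePoint ℂ) := by
    funext w; rfl
  rw [this]
  exact swpHomeo.isOpenEmbedding.comp OnePoint.isOpenEmbedding_coe

lemma proj_eventually {u : ℂ × ℂ} (h : u.1 ≠ 0) : ∀ᶠ v in 𝓝 u, proj v = inf (v.2 / v.1) := by
  filter_upwards [(continuous_fst.isOpen_preimage _ isOpen_ne).mem_nhds (x := u) h] with v hv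
  have hv : v.1 ≠ 0 := hv
  unfold proj inf
  by_cases h2 : v.2 = 0
  · simp [h2]
  · have : v.2 / v.1 ≠ 0 := div_ne_zero h2 hv
    simp [h2, this]

lemma proj_eventually' {u : ℂ × ℂ} (h : u.2 ≠ 0) :
    ∀ᶠ v in 𝓝 u, proj v = ((v.1 / v.2 : ℂ) : OnePoint ℂ) := by
  filter_upwards [(continuous_snd.isOpen_preimage _ isOpen_ne).mem_nhds (x := u) h] with v hv
  have hv : v.2 ≠ 0 := hv
  simp [proj, hv]

lemma fst_ne_zero {u : ℂ × ℂ} (h : u ≠ 0) (h2 : u.2 = 0) : u.1 ≠ 0 := fun h' => h (Prod.ext h' h2)

lemma continuousAt_proj {u : ℂ × ℂ} (h : u ≠ 0) : ContinuousAt proj u := by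
  by_cases h2 : u.2 = 0
  · have h1 := fst_ne_zero h h2
    refine ContinuousAt.congr ?_ ((proj_eventually h1).mono fun _ => Eq.symm)
    exact continuous_inf.continuousAt.comp (continuousAt_snd.div continuousAt_fst h1)
  · refine ContinuousAt.congr ?_ ((proj_eventually' h2).mono fun _ => Eq.symm)
    exact OnePoint.continuous_coe.continuousAt.comp (continuousAt_fst.div continuousAt_snd h2)

/-- Continuity on `P^1 × B` in homogeneous coordinates. -/
lemma continuousAt_iff_proj {B Y : Type*} [TopologicalSpace B] [TopologicalSpace Y]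
    {F : OnePoint ℂ → B → Y} {u : ℂ × ℂ} (hu : u ≠ 0) {b : B} :
    ContinuousAt (fun p : OnePoint ℂ × B => F p.1 p.2) (proj u, b) ↔
      ContinuousAt (fun p : (ℂ × ℂ) × B => F (proj p.1) p.2) (u, b) := by
  constructor
  · intro h
    have h2 : ContinuousAt (fun p : (ℂ × ℂ) × B => (proj p.1, p.2)) (u, b) :=
      (ContinuousAt.comp (x := (u, b)) (f := Prod.fst) (g := proj) (continuousAt_proj hu)
        continuousAt_fst).prodMk continuousAt_snd
    exact ContinuousAt.comp (f := fun p : (ℂ × ℂ) × B => (proj p.1, p.2))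
      (g := fun p : OnePoint ℂ × B => F p.1 p.2) h h2
  · intro h
    by_cases h2 : u.2 = 0
    · have h1 := fst_ne_zero hu h2
      have e1 : proj u = inf 0 := by rw [inf_zero, proj_eq_infty, h2]
      rw [e1]
      have key : ContinuousAt ((fun p : OnePoint ℂ × B => F p.1 p.2) ∘ Prod.map inf id)
          ((0 : ℂ), b) := by
        have e2 : (u, b) = (fun p : ℂ × B => ((u.1, u.1 * p.1), p.2)) ((0 : ℂ), b) := by
          ext <;> simp [h2]
        rw [e2] at h
        have h3 : ContinuousAt (fun p : ℂ × B => ((u.1, u.1 * p.1), p.2)) ((0 : ℂ), b) := by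
          fun_prop
        refine (ContinuousAt.comp (f := fun p : ℂ × B => ((u.1, u.1 * p.1), p.2))
          (g := fun p : (ℂ × ℂ) × B => F (proj p.1) p.2) h h3).congr
          (Eventually.of_forall fun p => ?_)
        simp only [Function.comp, Prod.map, id]
        have := proj_smul h1 (1, p.1)
        simp only [mul_one] at this
        rw [this, proj_inf]
      exact ((isOpenEmbedding_inf.prodMap Topology.IsOpenEmbedding.id).continuousAt_iff).1 key
    · have e1 : proj u = ((u.1 / u.2 : ℂ) : OnePoint ℂ) := by simp [proj, h2]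
      rw [e1]
      have key : ContinuousAt ((fun p : OnePoint ℂ × B => F p.1 p.2) ∘ Prod.map (↑) id)
          ((u.1 / u.2 : ℂ), b) := by
        have e2 : (u, b) = (fun p : ℂ × B => ((u.2 * p.1, u.2), p.2)) ((u.1 / u.2 : ℂ), b) := by
          ext <;> simp [mul_div_cancel₀, h2]
        rw [e2] at h
        have h3 : ContinuousAt (fun p : ℂ × B => ((u.2 * p.1, u.2), p.2)) ((u.1 / u.2 : ℂ), b) := by
          fun_prop
        refine (ContinuousAt.comp (f := fun p : ℂ × B => ((u.2 * p.1, u.2), p.2))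
          (g := fun p : (ℂ × ℂ) × B => F (proj p.1) p.2) h h3).congr
          (Eventually.of_forall fun p => ?_)
        simp only [Function.comp, Prod.map, id]
        have := proj_smul h2 (p.1, 1)
        simp only [mul_one] at this
        rw [this, proj_one]
      exact ((OnePoint.isOpenEmbedding_coe.prodMap Topology.IsOpenEmbedding.id).continuousAt_iff).1 key

/-- Holomorphy on `P^1 × ℂ^m` in homogeneous coordinates. -/
lemma hol1_iff_proj {f : OnePoint ℂ → (Fin m → ℂ) → ℂ} {u : ℂ × ℂ} (hu : u ≠ 0) {b : Fin m → ℂ} :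
    Hol1 f (proj u) b ↔
      AnalyticAt ℂ (fun p : (ℂ × ℂ) × (Fin m → ℂ) => f (proj p.1) p.2) (u, b) := by
  by_cases h2 : u.2 = 0
  · have h1 := fst_ne_zero hu h2
    have e1 : proj u = OnePoint.infty := proj_eq_infty.2 h2
    have e3 : Hol1 f (proj u) b ↔
        AnalyticAt ℂ (fun p : ℂ × (Fin m → ℂ) => f (inf p.1) p.2) (0, b) := by
      rw [e1, Hol1]
      constructor
      · exact fun h => h.2 rfl
      · exact fun h => ⟨fun w hw => absurd hw.symm (OnePoint.coe_ne_infty w), fun _ => h⟩
    rw [e3]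
    constructor
    · intro h
      have h3 : AnalyticAt ℂ (fun p : (ℂ × ℂ) × (Fin m → ℂ) => (p.1.2 / p.1.1, p.2)) (u, b) := by
        exact ((((ContinuousLinearMap.snd ℂ ℂ ℂ).comp
          (ContinuousLinearMap.fst ℂ (ℂ × ℂ) (Fin m → ℂ))).analyticAt (u, b)).div
          (((ContinuousLinearMap.fst ℂ ℂ ℂ).comp
          (ContinuousLinearMap.fst ℂ (ℂ × ℂ) (Fin m → ℂ))).analyticAt (u, b)) h1).prod
          analyticAt_snd
      have h4 : (fun p : (ℂ × ℂ) × (Fin m → ℂ) => (p.1.2 / p.1.1, p.2)) (u, b) = (0, b) := by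
        simp [h2]
      rw [← h4] at h
      refine (AnalyticAt.comp (f := fun p : (ℂ × ℂ) × (Fin m → ℂ) => (p.1.2 / p.1.1, p.2))
        (g := fun p : ℂ × (Fin m → ℂ) => f (inf p.1) p.2) h h3).congr ?_
      have := (continuous_fst.continuousAt (x := (u, b))).eventually (proj_eventually h1)
      filter_upwards [this] with p hp
      simp only [Function.comp]
      rw [hp]
    · intro h
      have e2 : (u, b) = (fun p : ℂ × (Fin m → ℂ) => ((u.1, u.1 * p.1), p.2)) ((0 : ℂ), b) := by
        ext <;> simp [h2]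
      rw [e2] at h
      have h3 : AnalyticAt ℂ (fun p : ℂ × (Fin m → ℂ) => ((u.1, u.1 * p.1), p.2)) ((0 : ℂ), b) :=
        (analyticAt_const.prod (analyticAt_const.mul analyticAt_fst)).prod analyticAt_snd
      refine (AnalyticAt.comp (f := fun p : ℂ × (Fin m → ℂ) => ((u.1, u.1 * p.1), p.2))
        (g := fun p : (ℂ × ℂ) × (Fin m → ℂ) => f (proj p.1) p.2) h h3).congr
        (Eventually.of_forall fun p => ?_)
      simp only [Function.comp]
      have := proj_smul h1 (1, p.1)
      simp only [mul_one] at this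
      rw [this, proj_inf]
  · have e1 : proj u = ((u.1 / u.2 : ℂ) : OnePoint ℂ) := by simp [proj, h2]
    have e3 : Hol1 f (proj u) b ↔
        AnalyticAt ℂ (fun p : ℂ × (Fin m → ℂ) => f p.1 p.2) (u.1 / u.2, b) := by
      rw [e1, Hol1]
      constructor
      · exact fun h => h.1 _ rfl
      · refine fun h => ⟨fun w hw => ?_, fun h' => absurd h' (OnePoint.coe_ne_infty _)⟩
        rw [OnePoint.coe_eq_coe] at hw
        rw [← hw]; exact h
    rw [e3]
    constructor
    · intro h
      have h3 : AnalyticAt ℂ (fun p : (ℂ × ℂ) × (Fin m → ℂ) => (p.1.1 / p.1.2, p.2)) (u, b) := by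
        exact ((((ContinuousLinearMap.fst ℂ ℂ ℂ).comp
          (ContinuousLinearMap.fst ℂ (ℂ × ℂ) (Fin m → ℂ))).analyticAt (u, b)).div
          (((ContinuousLinearMap.snd ℂ ℂ ℂ).comp
          (ContinuousLinearMap.fst ℂ (ℂ × ℂ) (Fin m → ℂ))).analyticAt (u, b)) h2).prod
          analyticAt_snd
      have h4 : (fun p : (ℂ × ℂ) × (Fin m → ℂ) => (p.1.1 / p.1.2, p.2)) (u, b) =
        (u.1 / u.2, b) := rfl
      rw [← h4] at h
      refine (AnalyticAt.comp (f := fun p : (ℂ × ℂ) × (Fin m → ℂ) => (p.1.1 / p.1.2, p.2))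
        (g := fun p : ℂ × (Fin m → ℂ) => f p.1 p.2) h h3).congr ?_
      have := (continuous_fst.continuousAt (x := (u, b))).eventually (proj_eventually' h2)
      filter_upwards [this] with p hp
      simp only [Function.comp]
      rw [hp]
    · intro h
      have e2 : (u, b) = (fun p : ℂ × (Fin m → ℂ) => ((u.2 * p.1, u.2), p.2))
          ((u.1 / u.2 : ℂ), b) := by
        ext <;> simp [mul_div_cancel₀, h2]
      rw [e2] at h
      have h3 : AnalyticAt ℂ (fun p : ℂ × (Fin m → ℂ) => ((u.2 * p.1, u.2), p.2))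
          ((u.1 / u.2 : ℂ), b) :=
        ((analyticAt_const.mul analyticAt_fst).prod analyticAt_const).prod analyticAt_snd
      refine (AnalyticAt.comp (f := fun p : ℂ × (Fin m → ℂ) => ((u.2 * p.1, u.2), p.2))
        (g := fun p : (ℂ × ℂ) × (Fin m → ℂ) => f (proj p.1) p.2) h h3).congr
        (Eventually.of_forall fun p => ?_)
      simp only [Function.comp]
      have := proj_smul h2 (p.1, 1)
      simp only [mul_one] at this
      rw [this, proj_one]

end Vale.Agent.P273.H837

end
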