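import Vale.Agent.P273.H183.Fam

/-!
The strata of graphs with rational vertices: coordinates on the moduli space of such a graph, the
families of curves over it, and the statement that a combination of such strata has integral zero
against every closed form on the moduli stack. Everything here is a definition.
-/

noncomputable section

namespace Vale.Agent.P273.H837

open Set Sum H183
open scoped Topology

variable {L V E : Type} {m : ℕ}

/-- The position of a half-edge on the projective line of its vertex: one of `0, 1, ∞` or a
coordinate of `b`. -/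
def pt (b : Fin m → ℂ) : Fin 3 ⊕ Fin m → OnePoint ℂ :=
  Sum.elim ![((0 : ℂ) : OnePoint ℂ), ((1 : ℂ) : OnePoint ℂ), OnePoint.infty] fun j => (b j : ℂ)

/-- Coordinates on the moduli space of the graph `h` with vertices `V`, edges `E` and legs `L`, all
vertices rational (`h` is the vertex of a half-edge or leg): at each vertex there is one half-edge
or leg at each of `0, 1, ∞`, and the positions of all the others are the `m` coordinates. -/
structure Coord (h : (E × Bool) ⊕ L → V) (m : ℕ) where
  /-- The positions. -/
  c : (E × Bool) ⊕ L → Fin 3 ⊕ Fin m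
  const : ∀ v (i : Fin 3), ∃! y, h y = v ∧ c y = inl i
  coord : ∀ j : Fin m, ∃! y, c y = inr j

/-- The moduli space of the graph `h` in these coordinates (the product of the moduli spaces of
smooth rational curves with marked points): the positions on each component are distinct. -/
def Coord.base {h : (E × Bool) ⊕ L → V} (c : Coord h m) : Set (Fin m → ℂ) :=
  {b | ∀ y y', h y = h y' → pt b (c.c y) = pt b (c.c y') → y = y'}

/-- The function `f` is holomorphic at the point `(z, b)` of the product of the projective line and
`ℂ^m`. -/
def Hol1 (f : OnePoint ℂ → (Fin m → ℂ) → ℂ) (z : OnePoint ℂ) (b : Fin m → ℂ) : Prop :=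
  (∀ w : ℂ, z = w → AnalyticAt ℂ (fun u : ℂ × (Fin m → ℂ) => f u.1 u.2) (w, b)) ∧
  (z = OnePoint.infty → AnalyticAt ℂ (fun u : ℂ × (Fin m → ℂ) => f (inf u.1) u.2) (0, b))

/-- `C` is the family of the stratum of the graph `h` in the coordinates `c`: its fibre over `b` is
obtained from projective lines, one for each vertex, by gluing them at the two half-edges of each
edge, and `g v z b` is the point with coordinate `z` of the line of `v` (`g` is the
normalization). -/
def Coord.IsGlued {h : (E × Bool) ⊕ L → V} (c : Coord h m) (C : Fam L m) : Prop :=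
  C.B = c.base ∧ ∃ g : V → OnePoint ℂ → (Fin m → ℂ) → C.X,
    (∀ v, ContinuousOn (fun u : OnePoint ℂ × (Fin m → ℂ) => g v u.1 u.2) (univ ×ˢ c.base)) ∧
    (∀ p ∈ C.π ⁻¹' c.base, ∃ v z, g v z (C.π p) = p) ∧
    ∀ b ∈ c.base,
      (∀ v z, C.π (g v z b) = b) ∧
      (∀ v z v' z', g v z b = g v' z' b ↔ v = v' ∧ z = z' ∨ ∃ (e : E) (s : Bool),
        (v = h (inl (e, s)) ∧ z = pt b (c.c (inl (e, s)))) ∧
          v' = h (inl (e, !s)) ∧ z' = pt b (c.c (inl (e, !s)))) ∧
      (∀ v z f, C.hol f (g v z b) → Hol1 (fun z b => f (g v z b)) z b) ∧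
      ∀ x, C.s x b = g (h (inr x)) (pt b (c.c (inr x))) b

/-- The element `∑ a i [h i]` of the strata algebra (`[h]` is the pushforward of the fundamental
class under the gluing map of the graph `h`) is zero in the cohomology of the moduli space: for
every closed form `F` of degree `2m` on the moduli stack, the integral `I i` of `F` over the stratum
of `h i` is absolutely convergent, it does not depend on the choice of the coordinates and of the
family, and `∑ a i I i = 0`. -/
def Vanishes {ι : Type} [Fintype ι] (m : ℕ) (a : ι → ℚ) (h : ι → (E × Bool) ⊕ L → V) : Prop :=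
  (∀ i, ∃ (c : Coord (h i) m) (C : Fam L m), C.IsStable ∧ c.IsGlued C) ∧
  ∀ F : ∀ m', Fam L m' → (Fin m' → ℂ) → (Fin m' → ℂ) [⋀^Fin (m * 2)]→L[ℝ] ℝ,
    IsClosedForm L (m * 2) F → ∃ I : ι → ℝ, ∑ i, a i * I i = 0 ∧
      ∀ i (c : Coord (h i) m) (C : Fam L m), C.IsStable → c.IsGlued C →
        MeasureTheory.IntegrableOn (dens (F m C)) c.base ∧ ∫ b in c.base, dens (F m C) b = I i

end Vale.Agent.P273.H837

end
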