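import Vale.Agent.P273.H837.Strong
import Vale.Agent.P273.H503.Fin
import Vale.Agent.P273.H768.Exist

/-!
The top of the chain: existence, independence and the part about Pixton's relations are proved.
-/

noncomputable section

namespace Vale.Agent.P273.Top2

open Set Sum H183 H503 MeasureTheory
open H93 hiding Inv
open H837 (GIso Coord integral_eq hasStrong)
open Vale.Agent.P273.Z (hd th Fn Pix Valid)

/-- No loops. -/
def NoLoop (h : H93.Gr) : Prop := ∀ y : (Fin 3 ⊕ Fin 6) × Bool, h (inl (H768.fl y)) ≠ h (inl y)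

theorem indep_nl {F : Form16} (hF : IsClosedForm Lg14 (8 * 2) F) {h h' : H93.Gr} (i : GIso h h')
    (hl : NoLoop h) (c : Coord h 8) (C : Fam Lg14 8) (c' : Coord h' 8) (C' : Fam Lg14 8)
    (h1 : C.IsStable) (h2 : c.IsGlued C) (h3 : C'.IsStable) (h4 : c'.IsGlued C') :
    (IntegrableOn (dens (F 8 C)) c.base ↔ IntegrableOn (dens (F 8 C')) c'.base) ∧
      ∫ b in c.base, dens (F 8 C) b = ∫ b in c'.base, dens (F 8 C') b :=
  integral_eq i c c' (hasStrong c hl h1 h2) h1 h3 h2 h4 hF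

theorem str_eq' {F : Form16} (hF : IsClosedForm Lg14 (8 * 2) F) {h : H93.Gr} (hl : NoLoop h)
    (c : Coord h 8) (C : Fam Lg14 8) (h1 : C.IsStable) (h2 : c.IsGlued C) :
    ∫ b in c.base, dens (F 8 C) b = str F h := by
  have H : ∃ (c : Coord h 8) (C : Fam Lg14 8), C.IsStable ∧ c.IsGlued C := ⟨c, C, h1, h2⟩
  rw [str, dif_pos H]
  exact (indep_nl hF (GIso.mk' (Equiv.refl _) (Equiv.refl _) (fun _ => rfl) fun y => by simp) hl
    c C _ _ h1 h2 H.choose_spec.choose_spec.1 H.choose_spec.choose_spec.2).2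

theorem noLoop_iso {h h' : H93.Gr} (i : GIso h h') (hl : NoLoop h) : NoLoop h' := by
  intro y hy
  have h1 : h (i.symm.Q (inl (H768.fl y))) = h (i.symm.Q (inl y)) := by
    rw [i.symm.h_Q, i.symm.h_Q, hy]
  apply hl (i.q.symm y)
  have h2 : i.q.symm (H768.fl y) = H768.fl (i.q.symm y) := i.symm.edge y.1 y.2
  rw [← h2]
  exact h1

open Classical in
/-- The integral, zero on graphs with loops. -/
def strN (F : Form16) (h : H93.Gr) : ℝ := if NoLoop h then str F h else 0

theorem strN_inv {F : Form16} (hF : IsClosedForm Lg14 (8 * 2) F) : H93.Inv (strN F) := by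
  intro P Q hQe h h' hPQ
  let i : GIso h h' := GIso.mk' P Q hQe hPQ
  by_cases hl : NoLoop h
  · have hl' : NoLoop h' := noLoop_iso i hl
    rw [strN, strN, if_pos hl, if_pos hl']
    by_cases H : ∃ (c : Coord h 8) (C : Fam Lg14 8), C.IsStable ∧ c.IsGlued C
    · obtain ⟨c, C, h1, h2⟩ := H
      rw [← str_eq' hF hl c C h1 h2, ← str_eq' hF hl' (c.trans i) C h1 (h2.trans i)]
      exact (indep_nl hF i hl c C (c.trans i) C h1 h2 h1 (h2.trans i)).2
    · have H' : ¬ ∃ (c : Coord h' 8) (C : Fam Lg14 8), C.IsStable ∧ c.IsGlued C := by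
        rintro ⟨c, C, h1, h2⟩
        exact H ⟨c.trans i.symm, C, h1, h2.trans i.symm⟩
      rw [str, str, dif_neg H, dif_neg H']
  · have hl' : ¬ NoLoop h' := fun hl' => hl (noLoop_iso i.symm hl')
    rw [strN, strN, if_neg hl, if_neg hl']

theorem noLoop_thE (e : Bool → Bool) (p q : ℕ) (σ : Bool → Equiv.Perm (Fin 7)) :
    NoLoop (thE e p q σ) := H768.thE_loop e p q σ

theorem strN_thE (F : Form16) (e : Bool → Bool) (p q : ℕ) (σ : Bool → Equiv.Perm (Fin 7)) :
    strN F (thE e p q σ) = str F (thE e p q σ) := if_pos (noLoop_thE e p q σ)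

theorem ES_strN (F : Form16) (e : Bool → Bool) (p q : ℕ) : ES e p q (strN F) = ES e p q (str F) := by
  unfold ES
  simp only [strN_thE]

theorem noLoop_xh (i : Ix) : NoLoop (xh i) := by
  rw [xh, thx_eq]
  exact noLoop_thE _ _ _ _

/-- **The top of the chain.** -/
theorem final_of2 (hInt : Integr) {C : ℕ → ℕ → ℝ} {K : ℝ} (hLim : LimOut C) (hC : Coeff C K) :
    Final := by
  have hS := split
  refine ⟨hS.1, ⟨fun i => ?_, fun F hF => ⟨fun i => str F (xh i), ?_,
    fun i c D hD hc => ⟨?_, str_eq' hF (noLoop_xh i) c D hD hc⟩⟩⟩, hS.2⟩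
  · rw [xh, thx_eq]
    exact H768.exist _ _ _ _ (tpq_le _).1 (tpq_le _).2
  · obtain ⟨hK, h222, h123, h033, h114, h024, h015, h006⟩ := hC
    have h1 : ∑ i : Ix, (xa i : ℝ) * str F (xh i) = ∑ i : Ix, (xa i : ℝ) * strN F (xh i) := by
      refine Finset.sum_congr rfl fun i _ => ?_
      rw [strN, if_pos (noLoop_xh i)]
    rw [h1, sum_xa]
    refine lim_onX (strN_inv hF) C K hK h006 h015 h024 h033 h114 h123 h222 ?_
    rw [← hLim F hF]
    simp only [DS, ES_strN]
  · obtain ⟨c', D', h1, h2, h3⟩ := hInt F hF (cond i.2.2 (fun b => b) (fun _ => true))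
      (tpq i.2.1).1 (tpq i.2.1).2 i.1 (tpq_le _).1 (tpq_le _).2
    exact (indep_nl hF (GIso.mk' (Equiv.refl _) (Equiv.refl _) (fun _ => rfl)
      (fun y => by simp [xh, thx_eq])) (noLoop_thE _ _ _ _) c' D' c D h1 h2 hD hc).1.1 h3

end Vale.Agent.P273.Top2

end
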