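import Vale.Agent.P273.H837.Indep
import Vale.Agent.P273.H599.Glued
import Vale.Agent.P273.H768.OfCoord

/-!
The glued family with the universal property exists for every graph without loops that has a glued
family.
-/

noncomputable section

namespace Vale.Agent.P273.H837

open Set Filter Topology H183 Sum
open scoped Topology

variable {L V E : Type} {m : ℕ} {h : (E × Bool) ⊕ L → V}

/-- The graph of a glued family is connected. -/
theorem gconn_of_isGlued [Finite V] {c : Coord h m} {C : Fam L m} (hCs : C.IsStable)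
    (hC : c.IsGlued C) {b : Fin m → ℂ} (hb : b ∈ c.base) : H768.GConn h := by
  obtain ⟨hB, g, h1, h2, h3⟩ := hC
  obtain ⟨h4, h5, -, -⟩ := h3 b hb
  have hT2 : T2Space C.X := hCs.2.1
  have hconn := (hCs.2.2.2.2.2 b (hB ▸ hb)).1
  intro v0
  by_contra hne
  push Not at hne
  obtain ⟨v1, hv1⟩ := hne
  set r : V → V → Prop := fun v v' =>
    ∃ y : E × Bool, h (inl y) = v ∧ h (inl (H768.fl y)) = v' with hr
  set S : Set V := {v | Relation.ReflTransGen r v0 v} with hS
  have hcl : ∀ S' : Set V, IsClosed (⋃ v ∈ S', (fun z => g v z b) '' univ) := by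
    intro S'
    refine (S'.toFinite).isClosed_biUnion fun v _ => ?_
    refine (isCompact_univ.image ?_).isClosed
    have h6 : Continuous fun z : OnePoint ℂ => g v z b := by
      rw [continuous_iff_continuousAt]
      intro z
      have h7 := h1 v (z, b) ⟨mem_univ _, hb⟩
      have h8 : ContinuousWithinAt (fun z : OnePoint ℂ => (z, b)) univ z := by fun_prop
      have h9 := ContinuousWithinAt.comp (x := z) (f := fun z : OnePoint ℂ => (z, b))
        (g := fun u : OnePoint ℂ × (Fin m → ℂ) => g v u.1 u.2) h7 h8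
        (fun z _ => ⟨mem_univ _, hb⟩)
      rwa [continuousWithinAt_univ] at h9
    exact h6
  have hcov : C.fib b ⊆ (⋃ v ∈ S, (fun z => g v z b) '' univ) ∪
      ⋃ v ∈ Sᶜ, (fun z => g v z b) '' univ := by
    intro p hp
    have hp : C.π p = b := hp
    obtain ⟨v, z, h6⟩ := h2 p (by rw [mem_preimage, hp]; exact hb)
    rw [hp] at h6
    by_cases hv : v ∈ S
    · left
      exact mem_biUnion hv ⟨z, mem_univ _, h6⟩
    · right
      exact mem_biUnion hv ⟨z, mem_univ _, h6⟩
  have hin : ∀ v z, g v z b ∈ C.fib b := fun v z => h4 v z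
  have h6 := (isPreconnected_closed_iff.1 hconn.isPreconnected) _ _ (hcl S) (hcl Sᶜ) hcov
    ⟨g v0 OnePoint.infty b, hin _ _, mem_biUnion (x := v0) Relation.ReflTransGen.refl
      ⟨OnePoint.infty, mem_univ _, rfl⟩⟩
    ⟨g v1 OnePoint.infty b, hin _ _, mem_biUnion (x := v1) hv1
      ⟨OnePoint.infty, mem_univ _, rfl⟩⟩
  obtain ⟨p, -, h7, h8⟩ := h6
  simp only [mem_iUnion] at h7 h8
  obtain ⟨v, hv, z, -, h9⟩ := h7
  obtain ⟨v', hv', z', -, h10⟩ := h8
  have h11 : g v z b = g v' z' b := h9.trans h10.symm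
  rcases (h5 v z v' z').1 h11 with ⟨h12, -⟩ | ⟨e, s, ⟨h12, -⟩, h13, -⟩
  · exact hv' (h12 ▸ hv)
  · exact hv' (Relation.ReflTransGen.tail hv ⟨(e, s), h12.symm, h13.symm⟩)

/-- **The strong glued family.** -/
theorem hasStrong [Finite V] [Finite E] [Finite L] (c : Coord h m)
    (hl : ∀ y : E × Bool, h (inl (H768.fl y)) ≠ h (inl y)) {C : Fam L m} (hCs : C.IsStable)
    (hC : c.IsGlued C) : HasStrong c := by
  obtain ⟨b, hb⟩ := H768.base_ne c
  have hconn := gconn_of_isGlued hCs hC hb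
  have hV : Nonempty V := by
    obtain ⟨p, hp⟩ := ((hCs.2.2.2.2.2 b (hC.1 ▸ hb)).1).nonempty
    obtain ⟨hB, g, h1, h2, h3⟩ := hC
    have hp : C.π p = b := hp
    obtain ⟨v, z, h6⟩ := h2 p (by rw [mem_preimage, hp]; exact hb)
    exact ⟨v⟩
  obtain ⟨T, g, hpre, hB, h1, h2, h3, h4, h5⟩ := H768.exists_glued c hl hconn hV
  have hg : c.IsGlued T := ⟨hB, g, h1, fun p _ => h2 p, h3⟩
  refine ⟨T, g, hpre.isStable fun b hb D hD p hp f hf =>
    H599.glued_field_zero hpre.2.2.2.2.1 hg hb hD p hp f hf, hB,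
    ⟨fun b _ => analyticAt_id, fun b hb => hB ▸ hb, h1, fun b hb => (h3 b hb).1, ?_,
    fun b hb => (h3 b hb).2.1, fun b hb => (h3 b hb).2.2.1, fun b hb => (h3 b hb).2.2.2⟩,
    fun p F hF => (h5 F p).2 hF⟩
  intro b hb p hp
  have hp : T.π p = b := hp
  obtain ⟨v, z, h6⟩ := h2 p
  exact ⟨v, z, by rw [← hp]; exact h6⟩

end Vale.Agent.P273.H837

end
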