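import Vale.Agent.P273.H837.Mob

/-!
The change of coordinates between two systems of coordinates on the moduli space of a graph with
rational vertices.
-/

noncomputable section

namespace Vale.Agent.P273.H837

open Set Filter Topology H183
open scoped Topology

variable {L V E V' E' : Type} {m m' : ℕ}

/-- Homogeneous coordinates of the positions. -/
def hpt (b : Fin m → ℂ) : Fin 3 ⊕ Fin m → ℂ × ℂ :=
  Sum.elim ![(0, 1), (1, 1), (1, 0)] fun j => (b j, 1)

lemma hpt_ne (b : Fin m → ℂ) (x : Fin 3 ⊕ Fin m) : hpt b x ≠ 0 := by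
  rcases x with i | j
  · fin_cases i <;> simp [hpt]
  · simp [hpt]

lemma proj_hpt (b : Fin m → ℂ) (x : Fin 3 ⊕ Fin m) : proj (hpt b x) = pt b x := by
  rcases x with i | j
  · fin_cases i <;> simp [hpt, pt, proj]
  · simp [hpt, pt, proj]

lemma hpt_analytic (x : Fin 3 ⊕ Fin m) (b : Fin m → ℂ) :
    AnalyticAt ℂ (fun b => (hpt b x).1) b ∧ AnalyticAt ℂ (fun b => (hpt b x).2) b := by
  rcases x with i | j
  · exact ⟨(analyticAt_const : AnalyticAt ℂ (fun _ : Fin m → ℂ =>
      ((![(0, 1), (1, 1), (1, 0)] : Fin 3 → ℂ × ℂ) i).1) b),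
      (analyticAt_const : AnalyticAt ℂ (fun _ : Fin m → ℂ =>
      ((![(0, 1), (1, 1), (1, 0)] : Fin 3 → ℂ × ℂ) i).2) b)⟩
  · exact ⟨(ContinuousLinearMap.proj (R := ℂ) (φ := fun _ : Fin m => ℂ) j).analyticAt b,
      analyticAt_const⟩

lemma br_analytic {f g : (Fin m → ℂ) → ℂ × ℂ} {b : Fin m → ℂ}
    (hf : AnalyticAt ℂ (fun b => (f b).1) b ∧ AnalyticAt ℂ (fun b => (f b).2) b)
    (hg : AnalyticAt ℂ (fun b => (g b).1) b ∧ AnalyticAt ℂ (fun b => (g b).2) b) :
    AnalyticAt ℂ (fun b => br (f b) (g b)) b :=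
  (hf.1.mul hg.2).sub (hf.2.mul hg.1)

/-- The matrix that sends `p, q, r` to `0, 1, ∞`. -/
def mat3 (p q r : ℂ × ℂ) : Matrix (Fin 2) (Fin 2) ℂ :=
  !![p.2 * br q r, -p.1 * br q r; r.2 * br q p, -r.1 * br q p]

lemma act_mat3 (p q r u : ℂ × ℂ) :
    act (mat3 p q r) u = (br u p * br q r, br u r * br q p) := by
  simp only [act, mat3, br, Matrix.of_apply, Matrix.cons_val', Matrix.cons_val_zero,
    Matrix.cons_val_one, Matrix.cons_val_fin_one]
  ext <;> simp <;> ring

lemma det_mat3 (p q r : ℂ × ℂ) : (mat3 p q r).det = br q r * br q p * br p r := by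
  simp only [mat3, Matrix.det_fin_two_of, br]
  ring

/-- A Moebius map that fixes three points. -/
lemma mob_eq_id {M : Matrix (Fin 2) (Fin 2) ℂ} (hM : M.det ≠ 0)
    (h0 : mob M ((0 : ℂ) : OnePoint ℂ) = ((0 : ℂ) : OnePoint ℂ))
    (h1 : mob M ((1 : ℂ) : OnePoint ℂ) = ((1 : ℂ) : OnePoint ℂ))
    (h2 : mob M OnePoint.infty = OnePoint.infty) (z : OnePoint ℂ) : mob M z = z := by
  have e0 : M 0 1 = 0 := by
    have := (proj_eq_coe.1 h0).2
    simpa [act] using this
  have e2 : M 1 0 = 0 := by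
    have := proj_eq_infty.1 h2
    simpa [act] using this
  have e1 : M 0 0 = M 1 1 := by
    have := (proj_eq_coe.1 h1).2
    simpa [act, e0, e2] using this
  have e3 : M 1 1 ≠ 0 := by
    intro h
    apply hM
    rw [Matrix.det_fin_two, e0, h]
    simp
  unfold mob act
  rw [e0, e1, e2]
  simp only [zero_mul, add_zero, zero_add]
  rw [proj_smul e3, proj_lft]

namespace Coord

variable {h : (E × Bool) ⊕ L → V} {h' : (E' × Bool) ⊕ L → V'}

/-- The half-edge at `0, 1` or `∞`. -/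
def cst (c : Coord h m) (v : V) (k : Fin 3) : (E × Bool) ⊕ L := (c.const v k).choose

lemma cst_h (c : Coord h m) (v : V) (k : Fin 3) : h (c.cst v k) = v :=
  (c.const v k).choose_spec.1.1

lemma cst_c (c : Coord h m) (v : V) (k : Fin 3) : c.c (c.cst v k) = Sum.inl k :=
  (c.const v k).choose_spec.1.2

lemma eq_cst (c : Coord h m) {y} {k : Fin 3} (hy : c.c y = Sum.inl k) : y = c.cst (h y) k :=
  (c.const (h y) k).choose_spec.2 y ⟨rfl, hy⟩

/-- The half-edge of a coordinate. -/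
def crd (c : Coord h m) (j : Fin m) : (E × Bool) ⊕ L := (c.coord j).choose

lemma crd_c (c : Coord h m) (j : Fin m) : c.c (c.crd j) = Sum.inr j :=
  (c.coord j).choose_spec.1

lemma eq_crd (c : Coord h m) {y} {j : Fin m} (hy : c.c y = Sum.inr j) : y = c.crd j :=
  (c.coord j).choose_spec.2 y hy

section

variable (i : GIso h h') (c : Coord h m) (c' : Coord h' m')

/-- The matrix of the change of coordinates at the vertex `v`. -/
def cmat (v : V) (b : Fin m → ℂ) : Matrix (Fin 2) (Fin 2) ℂ :=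
  mat3 (hpt b (c.c (i.symm.Q (c'.cst (i.v v) 0)))) (hpt b (c.c (i.symm.Q (c'.cst (i.v v) 1))))
    (hpt b (c.c (i.symm.Q (c'.cst (i.v v) 2))))

/-- The change of coordinates. -/
def cmap (b : Fin m → ℂ) : Fin m' → ℂ := fun j =>
  let u := act (cmat i c c' (h (i.symm.Q (c'.crd j))) b) (hpt b (c.c (i.symm.Q (c'.crd j))))
  u.1 / u.2

lemma br_ne {c : Coord h m} {b : Fin m → ℂ} (hb : b ∈ c.base) {y y' : (E × Bool) ⊕ L}
    (hh : h y = h y') (hy : y ≠ y') : br (hpt b (c.c y)) (hpt b (c.c y')) ≠ 0 := by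
  intro h1
  rw [← proj_eq_iff (hpt_ne _ _) (hpt_ne _ _), proj_hpt, proj_hpt] at h1
  exact hy (hb y y' hh h1)

lemma h_symm_cst (v : V) (k : Fin 3) : h (i.symm.Q (c'.cst (i.v v) k)) = v := by
  rw [i.symm.h_Q, c'.cst_h (i.v v) k]
  exact i.v.symm_apply_apply v

lemma symm_cst_ne (v : V) {k l : Fin 3} (hkl : k ≠ l) :
    i.symm.Q (c'.cst (i.v v) k) ≠ i.symm.Q (c'.cst (i.v v) l) := by
  intro h1
  have h2 := congrArg i.Q h1
  rw [i.Q_symm, i.Q_symm] at h2
  have h3 := congrArg c'.c h2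
  rw [cst_c, cst_c] at h3
  exact hkl (Sum.inl.inj h3)

lemma det_cmat {b : Fin m → ℂ} (hb : b ∈ c.base) (v : V) : (cmat i c c' v b).det ≠ 0 := by
  have key : ∀ k l : Fin 3, k ≠ l →
      br (hpt b (c.c (i.symm.Q (c'.cst (i.v v) k)))) (hpt b (c.c (i.symm.Q (c'.cst (i.v v) l))))
        ≠ 0 := fun k l hkl =>
    br_ne hb (by rw [h_symm_cst i c' v k, h_symm_cst i c' v l]) (symm_cst_ne i c' v hkl)
  rw [cmat, det_mat3]
  exact mul_ne_zero (mul_ne_zero (key _ _ (by decide)) (key _ _ (by decide))) (key _ _ (by decide))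

lemma cmat_analytic (b : Fin m → ℂ) (v : V) (j k : Fin 2) :
    AnalyticAt ℂ (fun b => cmat i c c' v b j k) b := by
  have h1 := fun x => hpt_analytic (m := m) x b
  unfold cmat mat3
  fin_cases j <;> fin_cases k <;> simp
  · exact (h1 _).2.mul (br_analytic (h1 _) (h1 _))
  · exact ((h1 _).1.mul (br_analytic (h1 _) (h1 _))).neg
  · exact (h1 _).2.mul (br_analytic (h1 _) (h1 _))
  · exact ((h1 _).1.mul (br_analytic (h1 _) (h1 _))).neg

lemma act_snd_ne {b : Fin m → ℂ} (hb : b ∈ c.base) (j : Fin m') :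
    (act (cmat i c c' (h (i.symm.Q (c'.crd j))) b) (hpt b (c.c (i.symm.Q (c'.crd j))))).2 ≠ 0 := by
  rw [cmat, act_mat3]
  refine mul_ne_zero (br_ne hb ?_ ?_) (br_ne hb ?_ (symm_cst_ne i c' _ (by decide)))
  · exact (h_symm_cst i c' _ _).symm
  · intro h1
    have h2 := congrArg i.Q h1
    rw [i.Q_symm, i.Q_symm] at h2
    have h3 := congrArg c'.c h2
    rw [crd_c, cst_c] at h3
    exact Sum.inr_ne_inl h3
  · exact (h_symm_cst i c' _ _).trans (h_symm_cst i c' _ _).symm

lemma cmap_analytic {b : Fin m → ℂ} (hb : b ∈ c.base) : AnalyticAt ℂ (cmap i c c') b := by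
  rw [analyticAt_pi_iff]
  intro j
  have h1 := hpt_analytic (m := m) (c.c (i.symm.Q (c'.crd j))) b
  have h2 := fun k l => cmat_analytic i c c' b (h (i.symm.Q (c'.crd j))) k l
  exact (((h2 0 0).mul h1.1).add ((h2 0 1).mul h1.2)).div
    (((h2 1 0).mul h1.1).add ((h2 1 1).mul h1.2)) (act_snd_ne i c c' hb j)

/-- The Moebius maps send positions to positions. -/
lemma pt_cmap {b : Fin m → ℂ} (hb : b ∈ c.base) (y : (E × Bool) ⊕ L) :
    pt (cmap i c c' b) (c'.c (i.Q y)) = mob (cmat i c c' (h y) b) (pt b (c.c y)) := by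
  rw [← proj_hpt b, mob_proj (det_cmat i c c' hb _) (hpt_ne _ _)]
  have hQ : i.symm.Q (i.Q y) = y := i.symm_Q y
  have hv : h' (i.Q y) = i.v (h y) := i.h_Q y
  rcases hk : c'.c (i.Q y) with k | j
  · have h1 := c'.eq_cst hk
    rw [hv] at h1
    have h2 : y = i.symm.Q (c'.cst (i.v (h y)) k) := by rw [← h1, hQ]
    have h3 : hpt b (c.c y) = hpt b (c.c (i.symm.Q (c'.cst (i.v (h y)) k))) := by
      rw [← h2]
    have key : ∀ k l : Fin 3, k ≠ l →
        br (hpt b (c.c (i.symm.Q (c'.cst (i.v (h y)) k))))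
          (hpt b (c.c (i.symm.Q (c'.cst (i.v (h y)) l)))) ≠ 0 := fun k l hkl =>
      br_ne hb ((h_symm_cst i c' _ _).trans (h_symm_cst i c' _ _).symm)
        (symm_cst_ne i c' (h y) hkl)
    rw [h3, cmat, act_mat3]
    symm
    fin_cases k
    · change _ = ((0 : ℂ) : OnePoint ℂ)
      rw [proj_eq_coe]
      refine ⟨mul_ne_zero (key _ _ (by decide)) (key _ _ (by decide)), ?_⟩
      simp [br_self]
    · change _ = ((1 : ℂ) : OnePoint ℂ)
      rw [proj_eq_coe]
      refine ⟨mul_ne_zero (key _ _ (by decide)) (key _ _ (by decide)), ?_⟩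
      rw [one_mul]
      exact mul_comm _ _
    · change _ = OnePoint.infty
      rw [proj_eq_infty]
      simp [br_self]
  · have h1 := c'.eq_crd hk
    have h2 : y = i.symm.Q (c'.crd j) := by rw [← h1, hQ]
    symm
    change _ = ((cmap i c c' b j : ℂ) : OnePoint ℂ)
    rw [proj_eq_coe]
    have h3 := act_snd_ne i c c' hb j
    rw [h2]
    refine ⟨h3, ?_⟩
    exact (div_mul_cancel₀ _ h3).symm

lemma cmap_mem {b : Fin m → ℂ} (hb : b ∈ c.base) : cmap i c c' b ∈ c'.base := by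
  intro y y' hh hy
  have e1 : y = i.Q (i.symm.Q y) := (i.Q_symm y).symm
  have e2 : y' = i.Q (i.symm.Q y') := (i.Q_symm y').symm
  have h1 : h (i.symm.Q y) = h (i.symm.Q y') := by
    rw [i.symm.h_Q, i.symm.h_Q, hh]
  rw [e1, e2, pt_cmap i c c' hb, pt_cmap i c c' hb, ← h1] at hy
  have h2 := hb _ _ h1 (mob_injective (det_cmat i c c' hb _) hy)
  rw [e1, e2, h2]

/-- The two changes of coordinates are inverse to each other. -/
lemma cmap_cmap {b : Fin m → ℂ} (hb : b ∈ c.base) : cmap i.symm c' c (cmap i c c' b) = b := by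
  have hb' := cmap_mem i c c' hb
  have key : ∀ y, pt (cmap i.symm c' c (cmap i c c' b)) (c.c y) =
      mob (cmat i.symm c' c (i.v (h y)) (cmap i c c' b) * cmat i c c' (h y) b)
        (pt b (c.c y)) := by
    intro y
    have h1 := pt_cmap i.symm c' c hb' (i.Q y)
    rw [i.symm_Q, i.h_Q, pt_cmap i c c' hb] at h1
    rw [h1, mob_mob (det_cmat i.symm c' c hb' _) (det_cmat i c c' hb _)]
  funext j
  set y := c.crd j with hy
  set M := cmat i.symm c' c (i.v (h y)) (cmap i c c' b) * cmat i c c' (h y) b with hM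
  have hdet : M.det ≠ 0 := by
    rw [hM, Matrix.det_mul]
    exact mul_ne_zero (det_cmat i.symm c' c hb' _) (det_cmat i c c' hb _)
  have key2 : ∀ k : Fin 3, mob M (pt b (Sum.inl k)) = pt b (Sum.inl k) := by
    intro k
    have h1 := key (c.cst (h y) k)
    rw [c.cst_c, c.cst_h (h y) k] at h1
    rw [hM, ← h1]
    rfl
  have h2 := key y
  rw [← hM, mob_eq_id hdet (key2 0) (key2 1) (key2 2), hy, crd_c] at h2
  exact OnePoint.coe_injective h2

lemma cmap_injOn : InjOn (cmap i c c') c.base := by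
  intro b hb b' hb' hbb
  rw [← cmap_cmap i c c' hb, ← cmap_cmap i c c' hb', hbb]

lemma cmap_image : cmap i c c' '' c.base = c'.base := by
  ext b'
  constructor
  · rintro ⟨b, hb, rfl⟩
    exact cmap_mem i c c' hb
  · intro hb'
    exact ⟨cmap i.symm c' c b', cmap_mem i.symm c' c hb', cmap_cmap i.symm c' c hb'⟩

end

end Coord

end Vale.Agent.P273.H837

end
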