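import Vale.Agent.P273.H183.Fam

/-!
The density of a form of top degree under a holomorphic change of variables.
-/

noncomputable section

namespace Vale.Agent.P273.H837

open Set MeasureTheory H183 Module

variable {m : ℕ}

/-- The standard real basis of `ℂ^m`. -/
def stdB (m : ℕ) : Basis (Fin (m * 2)) ℝ (Fin m → ℂ) :=
  (Pi.basis fun _ : Fin m => Complex.basisOneI).reindex
    ((Equiv.sigmaEquivProd (Fin m) (Fin 2)).trans finProdFinEquiv)

lemma stdB_apply (a : Fin (m * 2)) :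
    stdB m a = Pi.single a.divNat (if a.modNat = 0 then 1 else Complex.I) := by
  rw [stdB, Basis.reindex_apply]
  have h1 : ((Equiv.sigmaEquivProd (Fin m) (Fin 2)).trans finProdFinEquiv).symm a =
    ⟨a.divNat, a.modNat⟩ := rfl
  rw [h1, Pi.basis_apply]
  simp only [Complex.coe_basisOneI]
  congr 1
  generalize a.modNat = k
  fin_cases k <;> simp

lemma dens_eq (F : (Fin m → ℂ) → (Fin m → ℂ) [⋀^Fin (m * 2)]→L[ℝ] ℝ) (b : Fin m → ℂ) :
    dens F b = F b (stdB m) := by
  unfold dens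
  congr 1
  funext a
  exact (stdB_apply a).symm

/-- A form of top degree and a linear map. -/
lemma top_comp (ω : (Fin m → ℂ) [⋀^Fin (m * 2)]→L[ℝ] ℝ) (A : (Fin m → ℂ) →L[ℝ] (Fin m → ℂ)) :
    ω.compContinuousLinearMap A (stdB m) = A.det * ω (stdB m) := by
  have h1 : (ω.toAlternatingMap : (Fin m → ℂ) [⋀^Fin (m * 2)]→ₗ[ℝ] ℝ) =
      ω (stdB m) • (stdB m).det := AlternatingMap.eq_smul_basis_det (stdB m) _
  have h2 : ω.compContinuousLinearMap A (stdB m) =
      ω.toAlternatingMap ((A : (Fin m → ℂ) →ₗ[ℝ] (Fin m → ℂ)) ∘ stdB m) := rfl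
  rw [h2, h1, AlternatingMap.smul_apply, Basis.det_comp, Basis.det_self, mul_one, smul_eq_mul,
    mul_comm]

/-- The determinant of a complex linear map as a real linear map is not negative. -/
lemma det_nonneg (A : (Fin m → ℂ) →L[ℂ] (Fin m → ℂ)) :
    0 ≤ (A.restrictScalars ℝ).det := by
  have h1 : (A.restrictScalars ℝ).det =
      LinearMap.det ((A : (Fin m → ℂ) →ₗ[ℂ] (Fin m → ℂ)).restrictScalars ℝ) := rfl
  rw [h1, LinearMap.det_restrictScalars, Algebra.norm_complex_eq]
  exact Complex.normSq_nonneg _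

/-- The density of the pull-back of a form. -/
lemma dens_pull {F G : (Fin m → ℂ) → (Fin m → ℂ) [⋀^Fin (m * 2)]→L[ℝ] ℝ}
    {φ : (Fin m → ℂ) → Fin m → ℂ} {b : Fin m → ℂ} (hφ : AnalyticAt ℂ φ b)
    (h : F b = (G (φ b)).compContinuousLinearMap (fderiv ℝ φ b)) :
    dens F b = |(fderiv ℝ φ b).det| * dens G (φ b) := by
  rw [dens_eq, dens_eq, h, top_comp]
  have h1 : fderiv ℝ φ b = (fderiv ℂ φ b).restrictScalars ℝ :=
    hφ.differentiableAt.fderiv_restrictScalars ℝ
  rw [h1, abs_of_nonneg (det_nonneg _)]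

/-- **Change of variables.** -/
theorem integral_pull {F G : (Fin m → ℂ) → (Fin m → ℂ) [⋀^Fin (m * 2)]→L[ℝ] ℝ}
    {φ : (Fin m → ℂ) → Fin m → ℂ} {U U' : Set (Fin m → ℂ)} (hU : IsOpen U)
    (hφ : ∀ b ∈ U, AnalyticAt ℂ φ b) (hinj : InjOn φ U) (himg : φ '' U = U')
    (h : ∀ b ∈ U, F b = (G (φ b)).compContinuousLinearMap (fderiv ℝ φ b)) :
    (IntegrableOn (dens F) U ↔ IntegrableOn (dens G) U') ∧
      ∫ b in U, dens F b = ∫ b in U', dens G b := by
  have hd : ∀ b ∈ U, HasFDerivWithinAt φ (fderiv ℝ φ b) U b := fun b hb =>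
    ((hφ b hb).differentiableAt.restrictScalars ℝ).hasFDerivAt.hasFDerivWithinAt
  have he : ∀ b ∈ U, dens F b = |(fderiv ℝ φ b).det| • dens G (φ b) := fun b hb =>
    dens_pull (hφ b hb) (h b hb)
  subst himg
  constructor
  · rw [integrableOn_image_iff_integrableOn_abs_det_fderiv_smul volume hU.measurableSet hd hinj]
    exact integrableOn_congr_fun he hU.measurableSet
  · rw [integral_image_eq_integral_abs_det_fderiv_smul volume hU.measurableSet hd hinj]
    exact setIntegral_congr_fun hU.measurableSet he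

end Vale.Agent.P273.H837

end
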