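import Vale.Agent.P273.H837.Change
import Vale.Agent.P273.H395.Norm

/-!
Independence of the choice of coordinates and of the glued family, invariance under isomorphisms of
graphs: the value of a natural form.
-/

noncomputable section

namespace Vale.Agent.P273.H837

open Set Filter Topology H183
open scoped Topology

variable {L V E V' E' : Type} {m m' : ℕ}

/-- Continuity of a composition with a Moebius map. -/
lemma cont_mob {Y : Type*} [TopologicalSpace Y] {U : Set (Fin m → ℂ)} (hU : IsOpen U)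
    {Z : Set (Fin m' → ℂ)} {g : OnePoint ℂ → (Fin m' → ℂ) → Y} {φ : (Fin m → ℂ) → Fin m' → ℂ}
    {A : (Fin m → ℂ) → Matrix (Fin 2) (Fin 2) ℂ}
    (hg : ContinuousOn (fun u : OnePoint ℂ × (Fin m' → ℂ) => g u.1 u.2) (univ ×ˢ Z))
    (hφ : ∀ b ∈ U, AnalyticAt ℂ φ b) (hφZ : ∀ b ∈ U, φ b ∈ Z)
    (hA : ∀ b ∈ U, ∀ j k, AnalyticAt ℂ (fun b => A b j k) b) (hdet : ∀ b ∈ U, (A b).det ≠ 0) :
    ContinuousOn (fun u : OnePoint ℂ × (Fin m → ℂ) => g (mob (A u.2) u.1) (φ u.2)) (univ ×ˢ U) := by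
  rintro ⟨w0, b⟩ ⟨-, hb⟩
  have hb : b ∈ U := hb
  obtain ⟨u0, hu0, rfl⟩ := proj_surj w0
  have h1 : ContinuousAt (fun p : OnePoint ℂ × (Fin m → ℂ) => mob (A p.2) p.1)
      (H837.proj u0, b) := by
    rw [continuousAt_iff_proj (F := fun w b => mob (A b) w) hu0]
    have h2 : ContinuousAt (fun p : (ℂ × ℂ) × (Fin m → ℂ) => act (A p.2) p.1) (u0, b) := by
      have hAc : ∀ j k, ContinuousAt (fun p : (ℂ × ℂ) × (Fin m → ℂ) => A p.2 j k) (u0, b) :=
        fun j k => ContinuousAt.comp (x := (u0, b)) (f := Prod.snd)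
          (g := fun b => A b j k) (hA b hb j k).continuousAt continuousAt_snd
      have hf1 : ContinuousAt (fun p : (ℂ × ℂ) × (Fin m → ℂ) => p.1.1) (u0, b) := by fun_prop
      have hf2 : ContinuousAt (fun p : (ℂ × ℂ) × (Fin m → ℂ) => p.1.2) (u0, b) := by fun_prop
      unfold act
      exact (((hAc 0 0).mul hf1).add ((hAc 0 1).mul hf2)).prodMk
        (((hAc 1 0).mul hf1).add ((hAc 1 1).mul hf2))
    have h3 : ContinuousAt (fun p : (ℂ × ℂ) × (Fin m → ℂ) =>
        H837.proj (act (A p.2) p.1)) (u0, b) :=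
      ContinuousAt.comp (x := (u0, b)) (f := fun p : (ℂ × ℂ) × (Fin m → ℂ) =>
        act (A p.2) p.1) (g := H837.proj) (continuousAt_proj (act_ne (hdet b hb) hu0)) h2
    refine h3.congr ?_
    have h4 : ∀ᶠ p : (ℂ × ℂ) × (Fin m → ℂ) in 𝓝 (u0, b), p.1 ≠ 0 ∧ p.2 ∈ U :=
      (Filter.eventually_of_mem ((continuous_fst.isOpen_preimage _ isOpen_ne).mem_nhds
        (x := (u0, b)) hu0) fun _ h => h).and (Filter.eventually_of_mem
        ((continuous_snd.isOpen_preimage _ hU).mem_nhds (x := (u0, b)) hb) fun _ h => h)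
    filter_upwards [h4] with p hp
    exact (mob_proj (hdet _ hp.2) hp.1).symm
  have h5 : ContinuousWithinAt (fun u : OnePoint ℂ × (Fin m → ℂ) =>
      (mob (A u.2) u.1, φ u.2)) (univ ×ˢ U) (H837.proj u0, b) := by
    refine (h1.prodMk ?_).continuousWithinAt
    exact ContinuousAt.comp (x := (H837.proj u0, b)) (f := Prod.snd) (g := φ)
      (hφ b hb).continuousAt continuousAt_snd
  have h6 := hg (mob (A b) (H837.proj u0), φ b) ⟨mem_univ _, hφZ b hb⟩
  exact ContinuousWithinAt.comp (x := (H837.proj u0, b))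
    (f := fun u : OnePoint ℂ × (Fin m → ℂ) => (mob (A u.2) u.1, φ u.2))
    (g := fun u : OnePoint ℂ × (Fin m' → ℂ) => g u.1 u.2) h6 h5
    (fun u hu => ⟨mem_univ _, hφZ _ hu.2⟩)

/-- Holomorphy of a composition with a Moebius map. -/
lemma hol_mob {U : Set (Fin m → ℂ)} (hU : IsOpen U) {f : OnePoint ℂ → (Fin m' → ℂ) → ℂ}
    {φ : (Fin m → ℂ) → Fin m' → ℂ} {A : (Fin m → ℂ) → Matrix (Fin 2) (Fin 2) ℂ}
    (hφ : ∀ b ∈ U, AnalyticAt ℂ φ b) (hA : ∀ b ∈ U, ∀ j k, AnalyticAt ℂ (fun b => A b j k) b)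
    (hdet : ∀ b ∈ U, (A b).det ≠ 0) {b : Fin m → ℂ} (hb : b ∈ U) {w : OnePoint ℂ}
    (hf : Hol1 f (mob (A b) w) (φ b)) : Hol1 (fun w b => f (mob (A b) w) (φ b)) w b := by
  obtain ⟨u0, hu0, rfl⟩ := proj_surj w
  rw [mob_proj (hdet b hb) hu0, hol1_iff_proj (act_ne (hdet b hb) hu0)] at hf
  rw [hol1_iff_proj hu0]
  have hAc : ∀ j k, AnalyticAt ℂ (fun p : (ℂ × ℂ) × (Fin m → ℂ) => A p.2 j k) (u0, b) :=
    fun j k => AnalyticAt.comp (x := (u0, b)) (f := Prod.snd)
      (g := fun b => A b j k) (hA b hb j k) analyticAt_snd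
  have hf1 : AnalyticAt ℂ (fun p : (ℂ × ℂ) × (Fin m → ℂ) => p.1.1) (u0, b) :=
    ((ContinuousLinearMap.fst ℂ ℂ ℂ).comp
        (ContinuousLinearMap.fst ℂ (ℂ × ℂ) (Fin m → ℂ))).analyticAt (u0, b)
  have hf2 : AnalyticAt ℂ (fun p : (ℂ × ℂ) × (Fin m → ℂ) => p.1.2) (u0, b) :=
    ((ContinuousLinearMap.snd ℂ ℂ ℂ).comp
        (ContinuousLinearMap.fst ℂ (ℂ × ℂ) (Fin m → ℂ))).analyticAt (u0, b)
  have hφ' : AnalyticAt ℂ (fun p : (ℂ × ℂ) × (Fin m → ℂ) => φ p.2) (u0, b) :=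
    AnalyticAt.comp (x := (u0, b)) (f := Prod.snd) (g := φ) (hφ b hb) analyticAt_snd
  have h2 : AnalyticAt ℂ (fun p : (ℂ × ℂ) × (Fin m → ℂ) => (act (A p.2) p.1, φ p.2))
      (u0, b) := by
    unfold act
    exact ((((hAc 0 0).mul hf1).add ((hAc 0 1).mul hf2)).prod
          (((hAc 1 0).mul hf1).add ((hAc 1 1).mul hf2))).prod hφ'
  have h3 := AnalyticAt.comp (x := (u0, b))
    (f := fun p : (ℂ × ℂ) × (Fin m → ℂ) => (act (A p.2) p.1, φ p.2))
    (g := fun p : (ℂ × ℂ) × (Fin m' → ℂ) => f (H837.proj p.1) p.2) hf h2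
  refine h3.congr ?_
  have h4 : ∀ᶠ p : (ℂ × ℂ) × (Fin m → ℂ) in 𝓝 (u0, b), p.1 ≠ 0 ∧ p.2 ∈ U :=
    (Filter.eventually_of_mem ((continuous_fst.isOpen_preimage _ isOpen_ne).mem_nhds
      (x := (u0, b)) hu0) fun _ h => h).and (Filter.eventually_of_mem
      ((continuous_snd.isOpen_preimage _ hU).mem_nhds (x := (u0, b)) hb) fun _ h => h)
  filter_upwards [h4] with q hq
  simp only [Function.comp]
  rw [mob_proj (hdet _ hq.2) hq.1]

variable {h : (E × Bool) ⊕ L → V} {h' : (E' × Bool) ⊕ L → V'}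

/-- The pull-back of a glued family under the change of coordinates is glued. -/
theorem norm_cmap (i : GIso h h') (c : Coord h m) (c' : Coord h' m') (ho : IsOpen c.base)
    {C : Fam L m'} {g : V' → OnePoint ℂ → (Fin m' → ℂ) → C.X}
    (hC : H395.Norm C c'.base id h' (fun y b => pt b (c'.c y)) g) :
    H395.Norm C c.base (c.cmap i c') h (fun y b => pt b (c.c y))
      (fun v w b => g (i.v v) (mob (c.cmat i c' v b) w) (c.cmap i c' b)) where
  an := fun b hb => Coord.cmap_analytic i c c' hb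
  mem := fun b hb => hC.mem _ (Coord.cmap_mem i c c' hb)
  cont := fun v => cont_mob ho (hC.cont (i.v v)) (fun b hb => Coord.cmap_analytic i c c' hb)
    (fun b hb => Coord.cmap_mem i c c' hb) (fun b _ j k => Coord.cmat_analytic i c c' b v j k)
    (fun b hb => Coord.det_cmat i c c' hb v)
  proj := fun b hb v w => hC.proj _ (Coord.cmap_mem i c c' hb) _ _
  onto := by
    intro b hb p hp
    obtain ⟨v', w', h1⟩ := hC.onto _ (Coord.cmap_mem i c c' hb) p hp
    obtain ⟨v, rfl⟩ := i.v.surjective v'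
    obtain ⟨w, rfl⟩ := mob_surjective (Coord.det_cmat i c c' hb v) w'
    exact ⟨v, w, h1⟩
  ident := by
    intro b hb v w v' w'
    have h1 := hC.ident _ (Coord.cmap_mem i c c' hb) (i.v v) (mob (c.cmat i c' v b) w) (i.v v')
      (mob (c.cmat i c' v' b) w')
    rw [h1]
    exact i.id2_iff (A := fun v => c.cmat i c' v b) (fun v => Coord.det_cmat i c c' hb v)
      (z := fun y => pt b (c.c y)) (z' := fun y => pt (c.cmap i c' b) (c'.c y))
      (fun y => Coord.pt_cmap i c c' hb y) v w v' w'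
  hol := by
    intro b hb v w f hf
    have h1 := hC.hol _ (Coord.cmap_mem i c c' hb) _ _ f hf
    exact hol_mob (f := fun w b => f (g (i.v v) w b)) ho
      (fun b hb => Coord.cmap_analytic i c c' hb)
      (fun b _ j k => Coord.cmat_analytic i c c' b v j k)
      (fun b hb => Coord.det_cmat i c c' hb v) hb h1
  mark := by
    intro b hb x
    have h1 := hC.mark _ (Coord.cmap_mem i c c' hb) x
    have h2 := Coord.pt_cmap i c c' hb (Sum.inr x)
    have h3 := i.h_Q (Sum.inr x)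
    have h4 : i.Q (Sum.inr x) = Sum.inr x := rfl
    rw [h4] at h2 h3
    simp only [id] at h1
    rw [h1, ← h3, ← h2]

/-- There is a stable family over the moduli space in the coordinates `c` that has the universal
property. -/
def HasStrong (c : Coord h m) : Prop :=
  ∃ (T : Fam L m) (g : V → OnePoint ℂ → (Fin m → ℂ) → T.X), T.IsStable ∧ T.B = c.base ∧
    H395.Norm T c.base id h (fun y b => pt b (c.c y)) g ∧ H395.StrongHol T g

/-- **The value of a natural form on two glued families.** -/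
theorem eq_cmap [Finite V] (i : GIso h h') (c : Coord h m) (c' : Coord h' m') (hs : HasStrong c)
    {C : Fam L m} {C' : Fam L m'} (hCs : C.IsStable) (hC's : C'.IsStable) (hC : c.IsGlued C)
    (hC' : c'.IsGlued C') {k : ℕ}
    {F : ∀ m, Fam L m → (Fin m → ℂ) → (Fin m → ℂ) [⋀^Fin k]→L[ℝ] ℝ} (hF : IsClosedForm L k F)
    {b : Fin m → ℂ} (hb : b ∈ c.base) :
    F m C b = (F m' C' (c.cmap i c' b)).compContinuousLinearMap
      (fderiv ℝ (c.cmap i c') b) := by
  obtain ⟨T, gT, hT, hTB, hTn, hTh⟩ := hs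
  have ho : IsOpen c.base := hTB ▸ hT.1
  obtain ⟨g, hg⟩ := H395.Norm.of_isGlued hC
  obtain ⟨g', hg'⟩ := H395.Norm.of_isGlued hC'
  have hb' : b ∈ T.B := hTB.symm ▸ hb
  have hTn' : H395.Norm T T.B id h (fun y b => pt b (c.c y)) gT := hTB.symm ▸ hTn
  have h1 := H395.eq_pullback (m := m) (m' := m) hT hCs hTn'
    (hTB.symm ▸ hg : H395.Norm C T.B id h (fun y b => pt b (c.c y)) g) hTh hF b hb'
  have h2 := H395.eq_pullback (m := m') (m' := m) hT hC's hTn'
    (hTB.symm ▸ norm_cmap i c c' ho hg' : H395.Norm C' T.B (c.cmap i c') h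
      (fun y b => pt b (c.c y)) _) hTh hF b hb'
  rw [← h2, h1]
  simp only [id, fderiv_id]
  ext x
  rfl

end Vale.Agent.P273.H837

end
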