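import Vale.Agent.P273.H837.Ind
import Vale.Agent.P273.H837.Dens

/-!
Independence of the choice of coordinates and of the glued family, invariance under isomorphisms of
graphs: integrals and existence.
-/

noncomputable section

namespace Vale.Agent.P273.H837

open Set Filter Topology H183 MeasureTheory
open scoped Topology

variable {L V E V' E' : Type} {m : ℕ} {h : (E × Bool) ⊕ L → V} {h' : (E' × Bool) ⊕ L → V'}

/-- Two glued families over the moduli spaces of isomorphic graphs, in any coordinates, give the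
same integrals. -/
theorem integral_eq [Finite V] (i : GIso h h') (c : Coord h m) (c' : Coord h' m)
    (hs : HasStrong c) {C C' : Fam L m} (hCs : C.IsStable) (hC's : C'.IsStable)
    (hC : c.IsGlued C) (hC' : c'.IsGlued C')
    {F : ∀ m', Fam L m' → (Fin m' → ℂ) → (Fin m' → ℂ) [⋀^Fin (m * 2)]→L[ℝ] ℝ}
    (hF : IsClosedForm L (m * 2) F) :
    (IntegrableOn (dens (F m C)) c.base ↔ IntegrableOn (dens (F m C')) c'.base) ∧
      ∫ b in c.base, dens (F m C) b = ∫ b in c'.base, dens (F m C') b := by
  have ho : IsOpen c.base := by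
    have h1 := hCs.1
    rwa [hC.1] at h1
  exact integral_pull ho (fun b hb => Coord.cmap_analytic i c c' hb) (Coord.cmap_injOn i c c')
    (Coord.cmap_image i c c') (fun b hb => eq_cmap i c c' hs hCs hC's hC hC' hF hb)

/-- An isomorphism of graphs given by two maps. -/
def GIso.mk' (P : V ≃ V') (Q : E × Bool ≃ E' × Bool)
    (hQ : ∀ e, (Q (e, true)).1 = (Q (e, false)).1) (hP : ∀ y, h' (Sum.map Q id y) = P (h y)) :
    GIso h h' where
  v := P
  q := Q
  edge := by
    intro e s
    have h1 : (Q (e, !s)).1 = (Q (e, s)).1 := by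
      cases s
      · exact hQ e
      · exact (hQ e).symm
    have h2 : (Q (e, !s)).2 ≠ (Q (e, s)).2 := by
      intro h2
      have h3 := Q.injective (Prod.ext h1 h2)
      have h4 := congrArg Prod.snd h3
      cases s <;> simp at h4
    refine Prod.ext h1 ?_
    simp only
    revert h2
    cases (Q (e, !s)).2 <;> cases (Q (e, s)).2 <;> simp
  comm := hP

/-- Transport of coordinates along an isomorphism of graphs. -/
def Coord.trans (c : Coord h m) (i : GIso h h') : Coord h' m where
  c := fun y => c.c (i.symm.Q y)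
  const := by
    intro v' k
    obtain ⟨y, ⟨h1, h2⟩, h3⟩ := c.const (i.v.symm v') k
    refine ⟨i.Q y, ⟨?_, ?_⟩, ?_⟩
    · rw [i.h_Q, h1, Equiv.apply_symm_apply]
    · rw [i.symm_Q, h2]
    · rintro y' ⟨h4, h5⟩
      have h6 := h3 (i.symm.Q y') ⟨by rw [i.symm.h_Q, h4]; rfl, h5⟩
      rw [← h6, i.Q_symm]
  coord := by
    intro j
    obtain ⟨y, h1, h2⟩ := c.coord j
    refine ⟨i.Q y, ?_, ?_⟩
    · change c.c (i.symm.Q (i.Q y)) = _
      rw [i.symm_Q, h1]
    · intro y' h3
      rw [← h2 (i.symm.Q y') h3, i.Q_symm]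

lemma Coord.trans_c (c : Coord h m) (i : GIso h h') (y) : (c.trans i).c y = c.c (i.symm.Q y) := rfl

lemma Coord.trans_base (c : Coord h m) (i : GIso h h') : (c.trans i).base = c.base := by
  ext b
  constructor
  · intro hb y y' h1 h2
    have h3 := hb (i.Q y) (i.Q y') (by rw [i.h_Q, i.h_Q, h1])
      (by rw [trans_c, trans_c, i.symm_Q, i.symm_Q]; exact h2)
    rw [← i.symm_Q y, h3, i.symm_Q]
  · intro hb y y' h1 h2
    have h3 := hb (i.symm.Q y) (i.symm.Q y') (by rw [i.symm.h_Q, i.symm.h_Q, h1]) h2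
    rw [← i.Q_symm y, h3, i.Q_symm]

/-- Transport of glued families. -/
theorem Coord.IsGlued.trans {c : Coord h m} {C : Fam L m} (hC : c.IsGlued C) (i : GIso h h') :
    (c.trans i).IsGlued C := by
  obtain ⟨hB, g, h1, h2, h3⟩ := hC
  refine ⟨by rw [c.trans_base i, hB], fun v' => g (i.v.symm v'), ?_, ?_, ?_⟩
  · intro v'
    rw [c.trans_base i]
    exact h1 _
  · intro p hp
    rw [c.trans_base i] at hp
    obtain ⟨v, z, h4⟩ := h2 p hp
    exact ⟨i.v v, z, by simp only [Equiv.symm_apply_apply]; exact h4⟩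
  · intro b hb
    rw [c.trans_base i] at hb
    obtain ⟨h4, h5, h6, h7⟩ := h3 b hb
    refine ⟨fun v z => h4 _ z, ?_, fun v z f hf => h6 _ z f hf, ?_⟩
    · intro v z v' z'
      have h8 := i.symm.id2_iff (A := fun _ => 1) (fun _ => by simp)
        (z := fun y => pt b ((c.trans i).c y)) (z' := fun y => pt b (c.c y))
        (fun y => by rw [mob_one]; rfl) v z v' z'
      rw [mob_one, mob_one] at h8
      have h9 : i.symm.v = i.v.symm := rfl
      rw [h9] at h8
      exact (h5 _ _ _ _).trans h8
    · intro x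
      rw [h7 x]
      have h8 := i.h_Q (Sum.inr x)
      have h9 : i.Q (Sum.inr x) = Sum.inr x := rfl
      have h10 : i.symm.Q (Sum.inr x) = Sum.inr x := rfl
      rw [h9] at h8
      rw [h8]
      simp only [Equiv.symm_apply_apply, trans_c, h10]

end Vale.Agent.P273.H837

end
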