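import Vale.Agent.P273.H837.Mob

/-!
Morphisms from a glued family to a family with normalisation data.
-/

noncomputable section

namespace Vale.Agent.P273.H837

open Set Filter Topology H183
open scoped Topology

variable {L V E V' E' : Type} {m m' : ℕ}

/-- Normalisation data of the family `C` over the set `Z`: the fibre over `b ∈ Z` is glued from
projective lines with special points `z y b`. -/
structure NData (h : (E × Bool) ⊕ L → V) (C : Fam L m) (Z : Set (Fin m → ℂ))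
    (z : (E × Bool) ⊕ L → (Fin m → ℂ) → OnePoint ℂ)
    (g : V → OnePoint ℂ → (Fin m → ℂ) → C.X) : Prop where
  cont : ∀ v, ContinuousOn (fun u : OnePoint ℂ × (Fin m → ℂ) => g v u.1 u.2) (univ ×ˢ Z)
  onto : ∀ p, C.π p ∈ Z → ∃ v w, g v w (C.π p) = p
  proj : ∀ b ∈ Z, ∀ v w, C.π (g v w b) = b
  ident : ∀ b ∈ Z, ∀ v w v' w', g v w b = g v' w' b ↔ Id2 h (fun y => z y b) v w v' w'
  mark : ∀ b ∈ Z, ∀ x, C.s x b = g (h (Sum.inr x)) (z (Sum.inr x) b) b

/-- The universal property of a glued family: it has the quotient topology, and a function is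
holomorphic if it is holomorphic on the normalisation. -/
structure Univ (T : Fam L m) (g : V → OnePoint ℂ → (Fin m → ℂ) → T.X) : Prop where
  open_of : ∀ U : Set T.X,
    (∀ v, IsOpen {u : OnePoint ℂ × (Fin m → ℂ) | u.2 ∈ T.B ∧ g v u.1 u.2 ∈ U}) → IsOpen U
  hol_of : ∀ f p, (∀ v w, g v w (T.π p) = p → Hol1 (fun z b => f (g v z b)) w (T.π p)) →
    T.hol f p

/-- `IsGlued` in terms of `NData`. -/
lemma _root_.Vale.Agent.P273.H837.Coord.isGlued_iff {h : (E × Bool) ⊕ L → V} (c : Coord h m)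
    (C : Fam L m) : c.IsGlued C ↔ C.B = c.base ∧ ∃ g : V → OnePoint ℂ → (Fin m → ℂ) → C.X,
      NData h C c.base (fun y b => pt b (c.c y)) g ∧
      ∀ b ∈ c.base, ∀ v z f, C.hol f (g v z b) → Hol1 (fun z b => f (g v z b)) z b := by
  unfold Coord.IsGlued
  constructor
  · rintro ⟨hB, g, h1, h2, h3⟩
    refine ⟨hB, g, ⟨h1, fun p hp => h2 p hp, fun b hb => (h3 b hb).1, fun b hb => (h3 b hb).2.1,
      fun b hb => (h3 b hb).2.2.2⟩, fun b hb => (h3 b hb).2.2.1⟩
  · rintro ⟨hB, g, h1, h2⟩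
    exact ⟨hB, g, h1.cont, fun p hp => h1.onto p hp, fun b hb =>
      ⟨h1.proj b hb, h1.ident b hb, h2 b hb, h1.mark b hb⟩⟩

section

variable {h : (E × Bool) ⊕ L → V} {h' : (E' × Bool) ⊕ L → V'} {T : Fam L m} {C : Fam L m'}
  {Z : Set (Fin m' → ℂ)} {z : (E × Bool) ⊕ L → (Fin m → ℂ) → OnePoint ℂ}
  {z' : (E' × Bool) ⊕ L → (Fin m' → ℂ) → OnePoint ℂ}
  {g : V → OnePoint ℂ → (Fin m → ℂ) → T.X} {g' : V' → OnePoint ℂ → (Fin m' → ℂ) → C.X}
  {φ : (Fin m → ℂ) → Fin m' → ℂ} {A : V → (Fin m → ℂ) → Matrix (Fin 2) (Fin 2) ℂ}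

/-- The morphism. -/
theorem exists_mor (i : GIso h h') (hTB : IsOpen T.B) (hTπ : ∀ p, T.π p ∈ T.B)
    (hT : NData h T T.B z g) (uT : Univ T g) (hC : NData h' C Z z' g')
    (hφ : ∀ b ∈ T.B, AnalyticAt ℂ φ b) (hφZ : ∀ b ∈ T.B, φ b ∈ Z) (hφB : ∀ b ∈ T.B, φ b ∈ C.B)
    (hA : ∀ b ∈ T.B, ∀ v j k, AnalyticAt ℂ (fun b => A v b j k) b)
    (hdet : ∀ b ∈ T.B, ∀ v, (A v b).det ≠ 0)
    (hz : ∀ b ∈ T.B, ∀ y, z' (i.Q y) (φ b) = mob (A (h y) b) (z y b))
    (hol : ∀ b ∈ T.B, ∀ v' (u : ℂ × ℂ), u ≠ 0 → ∀ f, C.hol f (g' v' (H837.proj u) (φ b)) →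
      AnalyticAt ℂ (fun p : (ℂ × ℂ) × (Fin m → ℂ) => f (g' v' (H837.proj p.1) (φ p.2))) (u, b)) :
    ∃ Θ : T.X → C.X, IsMor T C φ Θ ∧
      ∀ b ∈ T.B, ∀ v w, Θ (g v w b) = g' (i.v v) (mob (A v b) w) (φ b) := by
  classical
  choose! vv ww hvw using fun p => hT.onto p (hTπ p)
  let Θ : T.X → C.X := fun p => g' (i.v (vv p)) (mob (A (vv p) (T.π p)) (ww p)) (φ (T.π p))
  have hid : ∀ b ∈ T.B, ∀ v w v' w', g v w b = g v' w' b ↔
      g' (i.v v) (mob (A v b) w) (φ b) = g' (i.v v') (mob (A v' b) w') (φ b) := by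
    intro b hb v w v' w'
    rw [hT.ident b hb, hC.ident _ (hφZ b hb)]
    exact (i.id2_iff (hdet b hb) (hz b hb) v w v' w').symm
  have hΘ : ∀ b ∈ T.B, ∀ v w, Θ (g v w b) = g' (i.v v) (mob (A v b) w) (φ b) := by
    intro b hb v w
    have h1 := hT.proj b hb v w
    have h2 := hvw (g v w b)
    rw [h1] at h2
    have h3 := (hid b hb _ _ _ _).1 h2
    simp only [Θ]
    rw [h1]
    exact h3
  refine ⟨Θ, ⟨?_, ?_, ?_⟩, hΘ⟩
  · intro b hb
    refine ⟨hφB b hb, hφ b hb, ⟨?_, ?_, ?_⟩, ?_⟩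
    · intro p hp
      have hp : T.π p = b := hp
      obtain ⟨v, w, h1⟩ := hT.onto p (hTπ p)
      rw [hp] at h1
      change C.π (Θ p) = φ b
      rw [← h1, hΘ b hb]
      exact hC.proj _ (hφZ b hb) _ _
    · intro p hp q hq hpq
      have hp : T.π p = b := hp
      have hq : T.π q = b := hq
      obtain ⟨v, w, h1⟩ := hT.onto p (hTπ p)
      obtain ⟨v', w', h2⟩ := hT.onto q (hTπ q)
      rw [hp] at h1
      rw [hq] at h2
      rw [← h1, ← h2] at hpq ⊢
      rw [hΘ b hb, hΘ b hb] at hpq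
      exact (hid b hb _ _ _ _).2 hpq
    · intro p' hp'
      have hp' : C.π p' = φ b := hp'
      obtain ⟨v', w', h1⟩ := hC.onto p' (by rw [hp']; exact hφZ b hb)
      rw [hp'] at h1
      obtain ⟨v, rfl⟩ := i.v.surjective v'
      obtain ⟨w, rfl⟩ := mob_surjective (hdet b hb v) w'
      exact ⟨g v w b, hT.proj b hb v w, by rw [hΘ b hb, h1]⟩
    · intro x
      rw [hT.mark b hb, hΘ b hb, hC.mark _ (hφZ b hb)]
      have h1 := hz b hb (Sum.inr x)
      have h2 := i.h_Q (Sum.inr x)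
      have h3 : i.Q (Sum.inr x) = Sum.inr x := rfl
      rw [h3] at h1 h2
      rw [h1, h2]
  · rw [continuous_def]
    intro U hU
    apply uT.open_of
    intro v
    rw [isOpen_iff_mem_nhds]
    rintro ⟨w0, b⟩ ⟨hb, hw⟩
    have hb : b ∈ T.B := hb
    have key : ContinuousWithinAt (fun u : OnePoint ℂ × (Fin m → ℂ) =>
        g' (i.v v) (mob (A v u.2) u.1) (φ u.2)) (univ ×ˢ T.B) (w0, b) := by
      obtain ⟨u0, hu0, rfl⟩ := proj_surj w0
      have h1 : ContinuousAt (fun p : OnePoint ℂ × (Fin m → ℂ) => mob (A v p.2) p.1)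
          (H837.proj u0, b) := by
        rw [continuousAt_iff_proj (F := fun w b => mob (A v b) w) hu0]
        have h2 : ContinuousAt (fun p : (ℂ × ℂ) × (Fin m → ℂ) => act (A v p.2) p.1) (u0, b) := by
          have hAc : ∀ j k, ContinuousAt (fun p : (ℂ × ℂ) × (Fin m → ℂ) => A v p.2 j k) (u0, b) :=
            fun j k => ContinuousAt.comp (x := (u0, b)) (f := Prod.snd)
              (g := fun b => A v b j k) (hA b hb v j k).continuousAt continuousAt_snd
          have hf1 : ContinuousAt (fun p : (ℂ × ℂ) × (Fin m → ℂ) => p.1.1) (u0, b) := by fun_prop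
          have hf2 : ContinuousAt (fun p : (ℂ × ℂ) × (Fin m → ℂ) => p.1.2) (u0, b) := by fun_prop
          unfold act
          exact (((hAc 0 0).mul hf1).add ((hAc 0 1).mul hf2)).prodMk
            (((hAc 1 0).mul hf1).add ((hAc 1 1).mul hf2))
        have h3 : ContinuousAt (fun p : (ℂ × ℂ) × (Fin m → ℂ) =>
            H837.proj (act (A v p.2) p.1)) (u0, b) :=
          ContinuousAt.comp (x := (u0, b)) (f := fun p : (ℂ × ℂ) × (Fin m → ℂ) =>
            act (A v p.2) p.1) (g := H837.proj) (continuousAt_proj (act_ne (hdet b hb v) hu0)) h2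
        refine h3.congr ?_
        have h4 : ∀ᶠ p : (ℂ × ℂ) × (Fin m → ℂ) in 𝓝 (u0, b), p.1 ≠ 0 ∧ p.2 ∈ T.B :=
          (Filter.eventually_of_mem ((continuous_fst.isOpen_preimage _ isOpen_ne).mem_nhds
            (x := (u0, b)) hu0) fun _ h => h).and (Filter.eventually_of_mem
            ((continuous_snd.isOpen_preimage _ hTB).mem_nhds (x := (u0, b)) hb) fun _ h => h)
        filter_upwards [h4] with p hp
        exact (mob_proj (hdet _ hp.2 v) hp.1).symm
      have h5 : ContinuousWithinAt (fun u : OnePoint ℂ × (Fin m → ℂ) =>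
          (mob (A v u.2) u.1, φ u.2)) (univ ×ˢ T.B) (H837.proj u0, b) := by
        refine (h1.prodMk ?_).continuousWithinAt
        exact ContinuousAt.comp (x := (H837.proj u0, b)) (f := Prod.snd) (g := φ)
          (hφ b hb).continuousAt continuousAt_snd
      have h6 := hC.cont (i.v v) (mob (A v b) (H837.proj u0), φ b) ⟨mem_univ _, hφZ b hb⟩
      exact ContinuousWithinAt.comp (x := (H837.proj u0, b))
        (f := fun u : OnePoint ℂ × (Fin m → ℂ) => (mob (A v u.2) u.1, φ u.2))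
        (g := fun u : OnePoint ℂ × (Fin m' → ℂ) => g' (i.v v) u.1 u.2) h6 h5
        (fun u hu => ⟨mem_univ _, hφZ _ hu.2⟩)
    have hopen : (univ ×ˢ T.B : Set (OnePoint ℂ × (Fin m → ℂ))) ∈ 𝓝 (w0, b) :=
      (isOpen_univ.prod hTB).mem_nhds ⟨mem_univ _, hb⟩
    have key2 := key.continuousAt hopen
    have hmem : g' (i.v v) (mob (A v b) w0) (φ b) ∈ U := by
      rw [← hΘ b hb]; exact hw
    have h7 := key2.preimage_mem_nhds (hU.mem_nhds hmem)
    filter_upwards [h7, hopen] with u hu hu2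
    refine ⟨hu2.2, ?_⟩
    rw [mem_preimage, hΘ _ hu2.2]
    exact hu
  · intro f p hf
    apply uT.hol_of
    intro v w hp
    have hb : T.π p ∈ T.B := hTπ p
    generalize hbb : T.π p = b at *
    obtain ⟨u0, hu0, rfl⟩ := proj_surj w
    rw [← hp, hΘ b hb, mob_proj (hdet b hb v) hu0] at hf
    have h1 := hol b hb (i.v v) _ (act_ne (hdet b hb v) hu0) f hf
    rw [hol1_iff_proj hu0]
    have hAc : ∀ j k, AnalyticAt ℂ (fun p : (ℂ × ℂ) × (Fin m → ℂ) => A v p.2 j k) (u0, b) :=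
      fun j k => AnalyticAt.comp (x := (u0, b)) (f := Prod.snd)
        (g := fun b => A v b j k) (hA b hb v j k) analyticAt_snd
    have hf1 : AnalyticAt ℂ (fun p : (ℂ × ℂ) × (Fin m → ℂ) => p.1.1) (u0, b) :=
      ((ContinuousLinearMap.fst ℂ ℂ ℂ).comp
          (ContinuousLinearMap.fst ℂ (ℂ × ℂ) (Fin m → ℂ))).analyticAt (u0, b)
    have hf2 : AnalyticAt ℂ (fun p : (ℂ × ℂ) × (Fin m → ℂ) => p.1.2) (u0, b) :=
      ((ContinuousLinearMap.snd ℂ ℂ ℂ).comp
          (ContinuousLinearMap.fst ℂ (ℂ × ℂ) (Fin m → ℂ))).analyticAt (u0, b)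
    have h2 : AnalyticAt ℂ (fun p : (ℂ × ℂ) × (Fin m → ℂ) => (act (A v p.2) p.1, p.2)) (u0, b) := by
      unfold act
      exact ((((hAc 0 0).mul hf1).add ((hAc 0 1).mul hf2)).prod
            (((hAc 1 0).mul hf1).add ((hAc 1 1).mul hf2))).prod analyticAt_snd
    have h3 := AnalyticAt.comp (x := (u0, b))
      (f := fun p : (ℂ × ℂ) × (Fin m → ℂ) => (act (A v p.2) p.1, p.2))
      (g := fun p : (ℂ × ℂ) × (Fin m → ℂ) => f (g' (i.v v) (H837.proj p.1) (φ p.2))) h1 h2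
    refine h3.congr ?_
    have h4 : ∀ᶠ p : (ℂ × ℂ) × (Fin m → ℂ) in 𝓝 (u0, b), p.1 ≠ 0 ∧ p.2 ∈ T.B :=
      (Filter.eventually_of_mem ((continuous_fst.isOpen_preimage _ isOpen_ne).mem_nhds
        (x := (u0, b)) hu0) fun _ h => h).and (Filter.eventually_of_mem
        ((continuous_snd.isOpen_preimage _ hTB).mem_nhds (x := (u0, b)) hb) fun _ h => h)
    filter_upwards [h4] with q hq
    simp only [Function.comp]
    rw [hΘ _ hq.2, mob_proj (hdet _ hq.2 v) hq.1]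

end

end Vale.Agent.P273.H837

end
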